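import Vale.Agent.P229.Defs

/-!
# P229, middle module: characteristics of the linear system in the slab

The system is `a_y = -b_p`, `b_y = g a_p + be b_p + c a + d b + G` with `g - be ^ 2 / 4 ≤ -t / 2`.
-/

namespace Vale.Agent.P229.Mid

open Real Set
open scoped ContDiff

/-- The slab `|p| ≤ L`, `|y| ≤ 1/2`. -/
def slab (L : ℝ) : Set E2 := {z | |z.1| ≤ L ∧ |z.2| ≤ 1 / 2}

lemma convex_slab (L : ℝ) : Convex ℝ (slab L) := by
  have h : slab L = Icc (-L) L ×ˢ Icc (-(1 / 2 : ℝ)) (1 / 2) := by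
    ext z; simp only [slab, mem_ofPred_eq, mem_prod, mem_Icc, abs_le]
  rw [h]; exact (convex_Icc _ _).prod (convex_Icc _ _)

lemma isCompact_slab (L : ℝ) : IsCompact (slab L) := by
  have h : slab L = Icc (-L) L ×ˢ Icc (-(1 / 2 : ℝ)) (1 / 2) := by
    ext z; simp only [slab, mem_ofPred_eq, mem_prod, mem_Icc, abs_le]
  rw [h]; exact isCompact_Icc.prod isCompact_Icc

/-- Half the difference of the characteristic slopes. -/
noncomputable def disc (g be : E2 → ℝ) (z : E2) : ℝ := Real.sqrt (be z ^ 2 / 4 - g z)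

/-- The weight of the Riemann invariant. -/
noncomputable def kap (g be : E2 → ℝ) (σ : ℝ) (z : E2) : ℝ := be z / 2 + σ * disc g be z

/-- The characteristic coefficient. -/
noncomputable def th (g be : E2 → ℝ) (σ : ℝ) (z : E2) : ℝ := be z / 2 - σ * disc g be z

/-- The Riemann invariant. -/
noncomputable def rinv (g be a b : E2 → ℝ) (σ : ℝ) (z : E2) : ℝ := b z + kap g be σ z * a z

/-- Hypotheses on the coefficients on the slab of half width `L`. -/
structure CharData (g be : E2 → ℝ) (t C L : ℝ) : Prop where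
  tpos : 0 < t
  tle : t ≤ 1
  Cone : 1 ≤ C
  small : C * Real.sqrt t ≤ 1 / 24
  Lpos : 0 ≤ L
  Lsmall : L ≤ Real.sqrt t / 32
  gsmooth : ∀ z ∈ slab L, ContDiffAt ℝ 1 g z
  besmooth : ∀ z ∈ slab L, ContDiffAt ℝ 1 be z
  hyp : ∀ z ∈ slab L, t / 2 ≤ be z ^ 2 / 4 - g z
  bdg : ∀ z ∈ slab L, |g z| ≤ C * t ∧ |d1 g z| ≤ C * t ∧ |d2 g z| ≤ C * t
  bdbe : ∀ z ∈ slab L, |be z| ≤ C * t ∧ |d1 be z| ≤ C * t ∧ |d2 be z| ≤ C * t

variable {g be : E2 → ℝ} {t C L : ℝ}

lemma CharData.sqrt_pos (D : CharData g be t C L) : 0 < Real.sqrt t := Real.sqrt_pos.2 D.tpos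

lemma CharData.sqrt_sq (D : CharData g be t C L) : Real.sqrt t ^ 2 = t :=
  Real.sq_sqrt D.tpos.le

lemma CharData.sqrt_le_one (D : CharData g be t C L) : Real.sqrt t ≤ 1 :=
  Real.sqrt_le_one.mpr D.tle

lemma CharData.Ct_le (D : CharData g be t C L) : C * t ≤ Real.sqrt t / 24 := by
  have h := mul_le_mul_of_nonneg_right D.small D.sqrt_pos.le
  have h3 : C * Real.sqrt t * Real.sqrt t = C * t := by
    rw [mul_assoc, ← pow_two, D.sqrt_sq]
  linarith

lemma disc_lb (D : CharData g be t C L) {z : E2} (hz : z ∈ slab L) :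
    2 / 3 * Real.sqrt t ≤ disc g be z := by
  apply Real.le_sqrt_of_sq_le
  have := D.hyp z hz
  have h2 := D.sqrt_sq
  nlinarith [D.tpos]

lemma disc_pos (D : CharData g be t C L) {z : E2} (hz : z ∈ slab L) : 0 < disc g be z := by
  have := disc_lb D hz
  have := D.sqrt_pos
  linarith

lemma disc_ub (D : CharData g be t C L) {z : E2} (hz : z ∈ slab L) :
    disc g be z ≤ 2 * C * Real.sqrt t := by
  have hs := D.sqrt_pos
  have hC := D.Cone
  unfold disc
  rw [Real.sqrt_le_left (by positivity)]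
  have h1 := (abs_le.1 (D.bdg z hz).1)
  have h2 : be z ^ 2 ≤ (C * t) ^ 2 := sq_le_sq' (abs_le.1 (D.bdbe z hz).1).1
    (abs_le.1 (D.bdbe z hz).1).2
  have h3 := D.sqrt_sq
  have h4 : C * t ≤ 1 := by linarith [D.Ct_le, D.sqrt_le_one]
  have h5 : (C * t) ^ 2 ≤ C * t := by nlinarith [D.tpos]
  have h6 : C * t ≤ C ^ 2 * t := by nlinarith [mul_nonneg (mul_nonneg (show (0:ℝ) ≤ C by linarith) (show (0:ℝ) ≤ C - 1 by linarith)) D.tpos.le]
  have h7 : (2 * C * Real.sqrt t) ^ 2 = 4 * (C ^ 2 * t) := by rw [mul_pow, h3]; ring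
  nlinarith [D.tpos]

lemma th_bounds (D : CharData g be t C L) {σ : ℝ} (hσ : σ = 1 ∨ σ = -1) {z : E2}
    (hz : z ∈ slab L) :
    Real.sqrt t / 2 ≤ -σ * th g be σ z ∧ -σ * th g be σ z ≤ 3 * C * Real.sqrt t := by
  have h1 := disc_lb D hz
  have h2 := disc_ub D hz
  have h3 := abs_le.1 (D.bdbe z hz).1
  have h4 := D.Ct_le
  have hs := D.sqrt_pos
  have hC := D.Cone
  have h5 : Real.sqrt t ≤ C * Real.sqrt t := le_mul_of_one_le_left hs.le hC
  rcases hσ with rfl | rfl <;> unfold th <;> constructor <;> nlinarith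

lemma th_ne (D : CharData g be t C L) {σ : ℝ} (hσ : σ = 1 ∨ σ = -1) {z : E2}
    (hz : z ∈ slab L) : th g be σ z ≠ 0 := by
  intro h
  have := (th_bounds D hσ hz).1
  rw [h] at this
  have := D.sqrt_pos
  linarith

lemma abs_th (D : CharData g be t C L) {σ : ℝ} (hσ : σ = 1 ∨ σ = -1) {z : E2}
    (hz : z ∈ slab L) :
    Real.sqrt t / 2 ≤ |th g be σ z| ∧ |th g be σ z| ≤ 3 * C * Real.sqrt t := by
  obtain ⟨h1, h2⟩ := th_bounds D hσ hz
  have hs := D.sqrt_pos
  rcases hσ with rfl | rfl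
  · rw [abs_of_nonpos (by linarith)]; constructor <;> linarith
  · rw [abs_of_nonneg (by linarith)]; constructor <;> linarith

lemma kap_mul_th (D : CharData g be t C L) {σ : ℝ} (hσ : σ = 1 ∨ σ = -1) {z : E2}
    (hz : z ∈ slab L) : kap g be σ z * th g be σ z = g z := by
  have h : disc g be z ^ 2 = be z ^ 2 / 4 - g z :=
    Real.sq_sqrt (by linarith [D.hyp z hz, D.tpos])
  have hσ2 : σ ^ 2 = 1 := by rcases hσ with rfl | rfl <;> norm_num
  unfold kap th
  linear_combination (-disc g be z ^ 2) * hσ2 - h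

lemma disc_smooth (D : CharData g be t C L) {z : E2} (hz : z ∈ slab L) :
    ContDiffAt ℝ 1 (disc g be) z :=
  ((((D.besmooth z hz).pow 2).div_const 4).sub (D.gsmooth z hz)).sqrt
    (by linarith [D.hyp z hz, D.tpos])

lemma kap_smooth (D : CharData g be t C L) (σ : ℝ) {z : E2} (hz : z ∈ slab L) :
    ContDiffAt ℝ 1 (kap g be σ) z :=
  ((D.besmooth z hz).div_const 2).add (contDiffAt_const.mul (disc_smooth D hz))

lemma th_smooth (D : CharData g be t C L) (σ : ℝ) {z : E2} (hz : z ∈ slab L) :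
    ContDiffAt ℝ 1 (th g be σ) z :=
  ((D.besmooth z hz).div_const 2).sub (contDiffAt_const.mul (disc_smooth D hz))

lemma fderiv_disc (D : CharData g be t C L) {z : E2} (hz : z ∈ slab L) (v : E2) :
    fderiv ℝ (disc g be) z v =
      (be z / 2 * fderiv ℝ be z v - fderiv ℝ g z v) / (2 * disc g be z) := by
  have hb := ((D.besmooth z hz).differentiableAt one_ne_zero).hasFDerivAt
  have hg := ((D.gsmooth z hz).differentiableAt one_ne_zero).hasFDerivAt
  have hin := ((hb.mul hb).mul_const (1 / 4 : ℝ)).sub hg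
  have heq : disc g be = fun z => Real.sqrt ((fun w => be w * be w * (1 / 4) - g w) z) := by
    funext w; unfold disc; congr 1; ring
  have hne : be z * be z * (1 / 4) - g z ≠ 0 := by
    nlinarith [D.hyp z hz, D.tpos]
  have h := (hin.sqrt hne).fderiv
  have hd : Real.sqrt (be z * be z * (1 / 4) - g z) = disc g be z := by
    unfold disc; congr 1; ring
  rw [heq]
  simp only [Pi.sub_apply, Pi.mul_apply] at h ⊢
  rw [h]
  simp only [smul_apply, sub_apply,
    add_apply, smul_eq_mul]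
  rw [hd]
  ring

lemma fderiv_disc_le (D : CharData g be t C L) {z : E2} (hz : z ∈ slab L) (v : E2)
    (h1 : |fderiv ℝ be z v| ≤ C * t) (h2 : |fderiv ℝ g z v| ≤ C * t) :
    |fderiv ℝ (disc g be) z v| ≤ 3 / 2 * C * Real.sqrt t := by
  rw [fderiv_disc D hz v, abs_div, abs_of_pos (by linarith [disc_pos D hz] : (0:ℝ) < 2 * disc g be z)]
  rw [div_le_iff₀ (by linarith [disc_pos D hz])]
  have h3 := (D.bdbe z hz).1
  have h4 := disc_lb D hz
  have h5 := D.sqrt_sq
  have hC := D.Cone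
  have hs := D.sqrt_pos
  have h6 : C * t ≤ 1 := by linarith [D.Ct_le, D.sqrt_le_one]
  have h7 : |be z / 2 * fderiv ℝ be z v| ≤ 1 / 2 * (C * t) := by
    rw [abs_mul]
    calc |be z / 2| * |fderiv ℝ be z v| ≤ (1 / 2) * (C * t) := by
          apply mul_le_mul _ h1 (abs_nonneg _) (by norm_num)
          rw [abs_div, abs_two]; linarith
      _ = _ := rfl
  have h8 := abs_sub (be z / 2 * fderiv ℝ be z v) (fderiv ℝ g z v)
  have h9 : 3 / 2 * C * Real.sqrt t * (2 * (2 / 3 * Real.sqrt t))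
      ≤ 3 / 2 * C * Real.sqrt t * (2 * disc g be z) := by
    apply mul_le_mul_of_nonneg_left (by linarith) (by positivity)
  have h10 : 3 / 2 * C * Real.sqrt t * (2 * (2 / 3 * Real.sqrt t)) = 2 * C * t := by
    rw [show 3 / 2 * C * Real.sqrt t * (2 * (2 / 3 * Real.sqrt t))
      = 2 * C * (Real.sqrt t ^ 2) by ring, h5]
  have h11 : 0 ≤ C * t := (abs_nonneg _).trans h1
  linarith

lemma fderiv_kap (D : CharData g be t C L) (σ : ℝ) {z : E2} (hz : z ∈ slab L) (v : E2) :
    fderiv ℝ (kap g be σ) z v = fderiv ℝ be z v / 2 + σ * fderiv ℝ (disc g be) z v := by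
  have hb := ((D.besmooth z hz).differentiableAt one_ne_zero).hasFDerivAt
  have hd := ((disc_smooth D hz).differentiableAt one_ne_zero).hasFDerivAt
  have h := ((hb.mul_const (1 / 2 : ℝ)).add (hd.const_mul σ)).fderiv
  have heq : kap g be σ = (fun y => be y * (1 / 2)) + fun y => σ * disc g be y := by
    funext w; simp only [kap, Pi.add_apply]; ring
  rw [heq, h]
  simp only [smul_apply, add_apply, smul_eq_mul]
  ring

lemma fderiv_th (D : CharData g be t C L) (σ : ℝ) {z : E2} (hz : z ∈ slab L) (v : E2) :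
    fderiv ℝ (th g be σ) z v = fderiv ℝ be z v / 2 - σ * fderiv ℝ (disc g be) z v := by
  have : th g be σ = kap g be (-σ) := by funext w; simp only [th, kap]; ring
  rw [this, fderiv_kap D (-σ) hz v]; ring

lemma fderiv_kap_le (D : CharData g be t C L) {σ : ℝ} (hσ : σ = 1 ∨ σ = -1) {z : E2}
    (hz : z ∈ slab L) :
    |d1 (kap g be σ) z| ≤ 2 * C * Real.sqrt t ∧ |d2 (kap g be σ) z| ≤ 2 * C * Real.sqrt t := by
  have h5 := D.sqrt_sq
  have hC := D.Cone
  have hs := D.sqrt_pos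
  have hs1 := D.sqrt_le_one
  have h6 : C * t ≤ C * Real.sqrt t := by
    apply mul_le_mul_of_nonneg_left _ (by linarith)
    nlinarith
  have key : ∀ v, |fderiv ℝ be z v| ≤ C * t → |fderiv ℝ g z v| ≤ C * t →
      |fderiv ℝ (kap g be σ) z v| ≤ 2 * C * Real.sqrt t := by
    intro v h1 h2
    have h3 := abs_le.1 (fderiv_disc_le D hz v h1 h2)
    have h4 := abs_le.1 h1
    rw [fderiv_kap D σ hz v, abs_le]
    rcases hσ with rfl | rfl <;> constructor <;> linarith [h4.1, h4.2]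
  exact ⟨key _ (D.bdbe z hz).2.1 (D.bdg z hz).2.1, key _ (D.bdbe z hz).2.2 (D.bdg z hz).2.2⟩

lemma th_lip (D : CharData g be t C L) {σ : ℝ} (hσ : σ = 1 ∨ σ = -1) {z w : E2}
    (hz : z ∈ slab L) (hw : w ∈ slab L) :
    |th g be σ w - th g be σ z| ≤ 4 * C * Real.sqrt t * ‖w - z‖ := by
  have heq : th g be σ = kap g be (-σ) := by funext w; simp only [th, kap]; ring
  have hσ' : -σ = 1 ∨ -σ = -1 := by rcases hσ with rfl | rfl <;> norm_num
  rw [heq]
  refine Convex.norm_image_sub_le_of_norm_fderiv_le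
    (f := kap g be (-σ)) (fun x hx => (kap_smooth D _ hx).differentiableAt one_ne_zero)
    (fun x hx => ?_) (convex_slab L) hz hw
  refine ContinuousLinearMap.opNorm_le_bound _
    (by have := D.Cone; have := D.sqrt_pos; positivity) fun v => ?_
  obtain ⟨h1, h2⟩ := fderiv_kap_le D hσ' hx
  have hv : fderiv ℝ (kap g be (-σ)) x v =
      v.1 * d1 (kap g be (-σ)) x + v.2 * d2 (kap g be (-σ)) x := by
    have : v = v.1 • ((1 : ℝ), (0 : ℝ)) + v.2 • ((0 : ℝ), (1 : ℝ)) := by ext <;> simp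
    conv_lhs => rw [this]
    rw [map_add, map_smul, map_smul]
    rfl
  rw [Real.norm_eq_abs, hv]
  calc _ ≤ |v.1 * d1 (kap g be (-σ)) x| + |v.2 * d2 (kap g be (-σ)) x| := abs_add_le _ _
    _ ≤ ‖v‖ * (2 * C * Real.sqrt t) + ‖v‖ * (2 * C * Real.sqrt t) := by
        rw [abs_mul, abs_mul]
        gcongr
        · exact norm_fst_le v
        · exact norm_snd_le v
    _ = _ := by ring

/-- The invariants determine the unknowns. -/
lemma recover (D : CharData g be t C L) {a b : E2 → ℝ} {z : E2} (hz : z ∈ slab L) {R : ℝ}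
    (hp : |rinv g be a b 1 z| ≤ R) (hm : |rinv g be a b (-1) z| ≤ R) :
    |a z| ≤ 2 * R / Real.sqrt t ∧ |b z| ≤ 2 * R := by
  have h1 := disc_lb D hz
  have hs := D.sqrt_pos
  have hR : 0 ≤ R := le_trans (abs_nonneg _) hp
  have hd : rinv g be a b 1 z - rinv g be a b (-1) z = 2 * disc g be z * a z := by
    unfold rinv kap; ring
  have hsum : rinv g be a b 1 z + rinv g be a b (-1) z = 2 * b z + be z * a z := by
    unfold rinv kap; ring
  have ha : |a z| ≤ 2 * R / Real.sqrt t := by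
    rw [le_div_iff₀ hs]
    have h2 : 2 * disc g be z * |a z| ≤ 2 * R := by
      have := abs_sub (rinv g be a b 1 z) (rinv g be a b (-1) z)
      rw [hd, abs_mul, abs_of_pos (by linarith : (0:ℝ) < 2 * disc g be z)] at this
      linarith
    nlinarith [abs_nonneg (a z)]
  refine ⟨ha, ?_⟩
  have h3 : |be z * a z| ≤ R / 12 := by
    rw [abs_mul]
    calc |be z| * |a z| ≤ (Real.sqrt t / 24) * (2 * R / Real.sqrt t) :=
          mul_le_mul (le_trans (D.bdbe z hz).1 D.Ct_le) ha (abs_nonneg _) (by positivity)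
      _ = R / 12 := by field_simp; ring
  have := abs_le.1 h3
  have := abs_le.1 hp
  have := abs_le.1 hm
  rw [abs_le]; constructor <;> linarith

lemma rinv_le (D : CharData g be t C L) {a b : E2 → ℝ} {σ : ℝ} (hσ : σ = 1 ∨ σ = -1) {z : E2}
    (hz : z ∈ slab L) {R : ℝ} (ha : |a z| ≤ R) (hb : |b z| ≤ R) :
    |rinv g be a b σ z| ≤ 2 * R := by
  have hσ' : -σ = 1 ∨ -σ = -1 := by rcases hσ with rfl | rfl <;> norm_num
  have heq : kap g be σ z = th g be (-σ) z := by simp only [th, kap]; ring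
  have h1 := (abs_th D hσ' hz).2
  have h2 : 3 * C * Real.sqrt t ≤ 1 := by linarith [D.small]
  unfold rinv
  rw [heq]
  have h3 : |th g be (-σ) z * a z| ≤ 1 * R := by
    rw [abs_mul]; exact mul_le_mul (by linarith) ha (abs_nonneg _) (by norm_num)
  have := abs_add_le (b z) (th g be (-σ) z * a z)
  linarith

/-- Derivative of a function along a graph. -/
lemma hasDerivWithinAt_graph {f : E2 → ℝ} {γ : ℝ → ℝ} {γ' p : ℝ} {s : Set ℝ}
    (hf : DifferentiableAt ℝ f (p, γ p)) (hγ : HasDerivWithinAt γ γ' s p) :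
    HasDerivWithinAt (fun x => f (x, γ x)) (d1 f (p, γ p) + γ' * d2 f (p, γ p)) s p := by
  have h := hf.hasFDerivAt.comp_hasDerivWithinAt p ((hasDerivWithinAt_id p s).prodMk hγ)
  refine h.congr_deriv ?_
  have : ((1 : ℝ), γ') = ((1 : ℝ), (0 : ℝ)) + γ' • ((0 : ℝ), (1 : ℝ)) := by ext <;> simp
  rw [this, map_add, map_smul]
  rfl

/-- Non-source part of the derivative of the invariant along its characteristic. -/
noncomputable def lower (g be a b c d : E2 → ℝ) (σ : ℝ) (z : E2) : ℝ :=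
  (d2 (kap g be σ) z - th g be σ z * d1 (kap g be σ) z + c z) * a z + d z * b z

/-- The equations in characteristic form. -/
lemma deriv_along (D : CharData g be t C L) {a b c d : E2 → ℝ} {G : E2 → ℝ} {σ : ℝ}
    (hσ : σ = 1 ∨ σ = -1) {γ : ℝ → ℝ} {p : ℝ} {s : Set ℝ} (hz : (p, γ p) ∈ slab L)
    (hγ : HasDerivWithinAt γ (-1 / th g be σ (p, γ p)) s p)
    (ha : DifferentiableAt ℝ a (p, γ p)) (hb : DifferentiableAt ℝ b (p, γ p))
    (hcompat : d2 a (p, γ p) = -d1 b (p, γ p))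
    (heq : d2 b (p, γ p) = g (p, γ p) * d1 a (p, γ p) + be (p, γ p) * d1 b (p, γ p)
      + c (p, γ p) * a (p, γ p) + d (p, γ p) * b (p, γ p) + G (p, γ p)) :
    HasDerivWithinAt (fun x => rinv g be a b σ (x, γ x))
      (-(lower g be a b c d σ (p, γ p) + G (p, γ p)) / th g be σ (p, γ p)) s p := by
  have hk := (kap_smooth D σ hz).differentiableAt one_ne_zero
  have hr : DifferentiableAt ℝ (rinv g be a b σ) (p, γ p) := hb.add (hk.mul ha)
  have hv : ∀ v, fderiv ℝ (rinv g be a b σ) (p, γ p) v = fderiv ℝ b (p, γ p) v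
      + (kap g be σ (p, γ p) * fderiv ℝ a (p, γ p) v
        + a (p, γ p) * fderiv ℝ (kap g be σ) (p, γ p) v) := by
    intro v
    have h := (hb.hasFDerivAt.add (hk.hasFDerivAt.mul ha.hasFDerivAt)).fderiv
    have heq' : rinv g be a b σ = b + (kap g be σ * a) := rfl
    rw [heq', h]
    simp [smul_eq_mul]
  refine (hasDerivWithinAt_graph hr hγ).congr_deriv ?_
  have hne := th_ne D hσ hz
  have hkt := kap_mul_th D hσ hz
  have hbe : be (p, γ p) = kap g be σ (p, γ p) + th g be σ (p, γ p) := by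
    unfold kap th; ring
  have h1 := hv ((1 : ℝ), (0 : ℝ))
  have h2 := hv ((0 : ℝ), (1 : ℝ))
  change d1 (rinv g be a b σ) (p, γ p) = d1 b (p, γ p) + (kap g be σ (p, γ p) * d1 a (p, γ p)
    + a (p, γ p) * d1 (kap g be σ) (p, γ p)) at h1
  change d2 (rinv g be a b σ) (p, γ p) = d2 b (p, γ p) + (kap g be σ (p, γ p) * d2 a (p, γ p)
    + a (p, γ p) * d2 (kap g be σ) (p, γ p)) at h2
  rw [h1, h2, heq, hcompat, ← hkt, hbe]
  unfold lower
  field_simp
  ring

lemma lower_le (D : CharData g be t C L) {a b c d : E2 → ℝ} {σ : ℝ} (hσ : σ = 1 ∨ σ = -1)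
    {z : E2} (hz : z ∈ slab L) {R : ℝ} (hR : 0 ≤ R)
    (ha : |a z| ≤ 2 * R / Real.sqrt t) (hb : |b z| ≤ 2 * R)
    (hc : |c z| ≤ C * t) (hd : |d z| ≤ C * t) :
    |lower g be a b c d σ z / th g be σ z| ≤ 24 * C * R / Real.sqrt t := by
  have hs := D.sqrt_pos
  have hC := D.Cone
  have hs1 := D.sqrt_le_one
  obtain ⟨k1, k2⟩ := fderiv_kap_le D hσ hz
  obtain ⟨t1, t2⟩ := abs_th D hσ hz
  have t3 : |th g be σ z| ≤ 1 := by linarith [D.small]
  have hct : C * t ≤ C * Real.sqrt t := by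
    apply mul_le_mul_of_nonneg_left _ (by linarith)
    nlinarith [D.sqrt_sq]
  have hA : |d2 (kap g be σ) z - th g be σ z * d1 (kap g be σ) z + c z|
      ≤ 5 * C * Real.sqrt t := by
    have h1 : |th g be σ z * d1 (kap g be σ) z| ≤ 1 * (2 * C * Real.sqrt t) := by
      rw [abs_mul]; exact mul_le_mul t3 k1 (abs_nonneg _) (by norm_num)
    have h2 := abs_le.1 h1
    have h3 := abs_le.1 k2
    have h4 := abs_le.1 hc
    rw [abs_le]; constructor <;> linarith
  have h5 : |(d2 (kap g be σ) z - th g be σ z * d1 (kap g be σ) z + c z) * a z|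
      ≤ 10 * C * R := by
    rw [abs_mul]
    calc _ ≤ (5 * C * Real.sqrt t) * (2 * R / Real.sqrt t) :=
          mul_le_mul hA ha (abs_nonneg _) (by positivity)
      _ = _ := by field_simp; ring
  have h6 : |d z * b z| ≤ 2 * C * R := by
    rw [abs_mul]
    calc _ ≤ (C * 1) * (2 * R) := mul_le_mul
          (hd.trans (mul_le_mul_of_nonneg_left D.tle (by linarith))) hb (abs_nonneg _)
          (by positivity)
      _ = _ := by ring
  have h7 : |lower g be a b c d σ z| ≤ 12 * C * R := by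
    unfold lower
    have := abs_add_le ((d2 (kap g be σ) z - th g be σ z * d1 (kap g be σ) z + c z) * a z)
      (d z * b z)
    linarith
  rw [abs_div, div_le_div_iff₀ (by linarith) hs]
  calc |lower g be a b c d σ z| * Real.sqrt t ≤ 12 * C * R * Real.sqrt t :=
        mul_le_mul_of_nonneg_right h7 hs.le
    _ = 24 * C * R * (Real.sqrt t / 2) := by ring
    _ ≤ 24 * C * R * |th g be σ z| := mul_le_mul_of_nonneg_left t1 (by positivity)

/-- Bound of the slope of a characteristic. -/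
lemma slope_bounds (D : CharData g be t C L) {σ : ℝ} (hσ : σ = 1 ∨ σ = -1) {z : E2}
    (hz : z ∈ slab L) :
    |-1 / th g be σ z| ≤ 2 / Real.sqrt t ∧ 1 ≤ σ * (-1 / th g be σ z) := by
  obtain ⟨h1, h2⟩ := th_bounds D hσ hz
  obtain ⟨h3, -⟩ := abs_th D hσ hz
  have hs := D.sqrt_pos
  constructor
  · rw [abs_div, abs_neg, abs_one, div_le_div_iff₀ (by linarith) hs]; linarith
  · have h4 : σ * (-1 / th g be σ z) = 1 / (-σ * th g be σ z) := by
      rcases hσ with rfl | rfl <;> field_simp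
    rw [h4, le_div_iff₀ (by linarith)]
    linarith [D.small]

end Vale.Agent.P229.Mid
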