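import Vale.Agent.P229.MiddleHyp
import Vale.Agent.P229.Psi
import Vale.Agent.P229.Middle.Char

/-!
# P229, middle module: elementary bounds in the slab, and the coefficient of the bump
-/

namespace Vale.Agent.P229.Mid

open Real Set Filter
open scoped ContDiff Topology

lemma iterate_d1_eq {f : E2 → ℝ} (hf : ContDiff ℝ ∞ f) : ∀ (l : ℕ) (z : E2),
    (d1^[l]) f z = iteratedFDeriv ℝ l f z fun _ => ((1 : ℝ), (0 : ℝ))
  | 0, z => by simp
  | l + 1, z => by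
    rw [Function.iterate_succ_apply', iteratedFDeriv_succ_apply_left]
    show fderiv ℝ ((d1^[l]) f) z (1, 0) = _
    rw [show (d1^[l]) f = fun w => iteratedFDeriv ℝ l f w fun _ => ((1 : ℝ), (0 : ℝ)) from
      funext (iterate_d1_eq hf l)]
    have hd : DifferentiableAt ℝ (iteratedFDeriv ℝ l f) z :=
      (hf.differentiable_iteratedFDeriv (by exact_mod_cast WithTop.coe_lt_top l)) z
    rw [fderiv_continuousMultilinear_apply_const_apply hd]
    rfl

lemma abs_iterate_d1_le {f : E2 → ℝ} (hf : ContDiff ℝ ∞ f) (l : ℕ) (z : E2) :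
    |(d1^[l]) f z| ≤ ‖iteratedFDeriv ℝ l f z‖ := by
  rw [iterate_d1_eq hf, ← Real.norm_eq_abs]
  refine (ContinuousMultilinearMap.le_opNorm _ _).trans (le_of_eq ?_)
  simp [Prod.norm_def]

variable {n : ℕ} {δ t lam η K0 : ℝ} {X q : E2 → ℝ}

lemma slab_box {L : ℝ} (hL : L ≤ 1 / 8) {z : E2} (hz : z ∈ slab L) : z ∈ box 4 :=
  ⟨by linarith [hz.1], by linarith [hz.2]⟩

/-- Sizes of the solution in the slab. -/
lemma hodo_sizes (h : Hodo n δ t lam η K0 X q) (hη : η ≤ 1 / 4) (ht : 0 < t) (ht1 : t ≤ η)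
    (hK0 : 0 ≤ K0) {L : ℝ} (hL : L ≤ 1 / 8) {z : E2} (hz : z ∈ slab L) :
    |z.1| ≤ 1 / 8 ∧ |X z| ≤ K0 + 1 ∧ |q z| ≤ (K0 + 2) ^ 2 := by
  have hb := slab_box hL hz
  have h1 : |z.1| ≤ 1 / 8 := hz.1.trans hL
  have h2 := h.axisX z hb
  have h3 := h.axisQ z hb
  have h4 : K0 * t ≤ K0 * 1 := mul_le_mul_of_nonneg_left (by linarith) hK0
  have h5 : |X z| ≤ K0 + 1 := by linarith
  refine ⟨h1, h5, h3.trans ?_⟩
  calc K0 * (|X z| + t) ≤ K0 * (K0 + 2) := mul_le_mul_of_nonneg_left (by linarith) hK0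
    _ ≤ (K0 + 2) ^ 2 := by nlinarith

/-- The low levels are bounded by a constant depending on `K0` only. -/
lemma base_levels (h : Hodo n δ t lam η K0 X q) (hη : η ≤ 1 / 4) (ht : 0 < t) (ht1 : t ≤ η)
    (hK0 : 0 ≤ K0) {L : ℝ} (hL : L ≤ 1 / 8) {z : E2} (hz : z ∈ slab L) {l : ℕ} (hl : l ≤ 5) :
    |(d1^[l]) X z| ≤ (K0 + 2) ^ 2 ∧ |(d1^[l]) q z| ≤ (K0 + 2) ^ 2 := by
  obtain ⟨-, h1, h2⟩ := hodo_sizes h hη ht ht1 hK0 hL hz
  have hB : (4 : ℝ) ≤ (K0 + 2) ^ 2 := by nlinarith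
  rcases Nat.lt_or_ge l 2 with h' | h'
  · interval_cases l
    · exact ⟨by simpa using (h1.trans (by nlinarith)), by simpa using h2⟩
    · have hx := abs_le.1 (h.Xp z)
      have hq := h.Qp z
      simp only [Function.iterate_one]
      exact ⟨abs_le.2 ⟨by linarith, by linarith⟩, by linarith⟩
  · exact ⟨(abs_iterate_d1_le h.smoothX l z).trans ((h.highX l h' hl z).trans (by linarith)),
      (abs_iterate_d1_le h.smoothQ l z).trans ((h.highQ l h' hl z).trans (by linarith))⟩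

lemma psi_low (n : ℕ) (hn : 1 ≤ n) : ∃ P : ℝ, 0 ≤ P ∧ ∀ δ, 0 < δ → δ ≤ 1 → ∀ u : E2,
    |psi n δ u| ≤ P ∧ |d1 (psi n δ) u| ≤ P ∧ |d2 (psi n δ) u| ≤ P := by
  obtain ⟨P0, h0⟩ := psiBound n 0 (Nat.zero_le _)
  obtain ⟨P1, h1⟩ := psiBound n 1 hn
  refine ⟨max (max P0 P1) 0, le_max_right _ _, fun δ hδ hδ1 u => ?_⟩
  have a0 : |psi n δ u| ≤ P0 := by simpa [norm_iteratedFDeriv_zero] using h0 δ hδ hδ1 u
  have a1 : ‖fderiv ℝ (psi n δ) u‖ ≤ P1 := by
    rw [← norm_iteratedFDeriv_one]; exact h1 δ hδ hδ1 u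
  have key : ∀ v : E2, ‖v‖ = 1 → |fderiv ℝ (psi n δ) u v| ≤ P1 := fun v hv => by
    have := (fderiv ℝ (psi n δ) u).le_opNorm v
    rw [hv, mul_one, Real.norm_eq_abs] at this
    exact this.trans a1
  exact ⟨a0.trans ((le_max_left _ _).trans (le_max_left _ _)),
    (key (1, 0) (by simp [Prod.norm_def])).trans ((le_max_right _ _).trans (le_max_left _ _)),
    (key (0, 1) (by simp [Prod.norm_def])).trans ((le_max_right _ _).trans (le_max_left _ _))⟩

/-- The coefficient of the bump is close to `-t`. -/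
theorem mainCoef_near (n m : ℕ) (hn : 1 ≤ n) (K0 : ℝ) (hK0 : 0 ≤ K0) {ε : ℝ} (hε : 0 < ε) :
    ∃ η1 : ℝ, 0 < η1 ∧ ∀ δ t lam η : ℝ, ∀ X q : E2 → ℝ, 0 < δ → δ ≤ 1 → 0 < t → t ≤ η →
      0 < lam → lam ≤ η → η ≤ η1 → Hodo n δ t lam η K0 X q → ∀ L : ℝ, L ≤ 1 / 8 → ∀ z ∈ slab L,
        |mainCoef (psi n δ) t lam X q m z + t| ≤ ε * t := by
  obtain ⟨P, hP0, hP⟩ := psi_low n hn
  have hc : ContinuousAt (fun w : ℝ × ℝ × ℝ => w.1 * w.2.1 ^ (m + 1) / w.2.2) (1, 1, 1) :=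
    ContinuousAt.div (by fun_prop) (by fun_prop) one_ne_zero
  obtain ⟨ρ, hρ, hρ'⟩ := Metric.continuousAt_iff.1 hc ε hε
  set W : ℝ := 4 * P + 1 + (K0 + 2) ^ 4 + 4 * P * (1 + (K0 + 2) ^ 2) + 1 with hW
  have hW1 : 1 ≤ W := by rw [hW]; nlinarith [sq_nonneg ((K0 + 2) ^ 2)]
  refine ⟨min (1 / 4) (min (ρ / (2 * W)) (1 / (2 * W))), by positivity,
    fun δ t lam η X q hδ hδ1 ht ht1 hlam hlam1 hη h L hL z hz => ?_⟩
  obtain ⟨hη4, hη'⟩ := le_min_iff.1 hη
  obtain ⟨hηρ, hηW⟩ := le_min_iff.1 hη'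
  obtain ⟨hp, -, hq⟩ := hodo_sizes h hη4 ht ht1 hK0 hL hz
  obtain ⟨a0, a1, a2⟩ := hP δ hδ hδ1 (X z, z.2)
  have hWη : W * η ≤ ρ / 2 ∧ W * η ≤ 1 / 2 := by
    constructor
    · rw [le_div_iff₀ (by positivity)] at hηρ; linarith
    · rw [le_div_iff₀ (by positivity)] at hηW; linarith
  set μ := t * lam ^ 2 with hμ
  have hl2 : lam ^ 2 ≤ η := by nlinarith
  have hμ0 : 0 ≤ μ := by positivity
  have hμη : μ ≤ η := by
    calc μ ≤ 1 * η := mul_le_mul (by linarith) hl2 (sq_nonneg _) zero_le_one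
      _ = η := one_mul _
  set v := d1 X z with hv
  have hv1 : |v - 1| ≤ η := h.Xp z
  have hv2 : |v| ≤ 2 := by
    have := abs_le.1 hv1
    exact abs_le.2 ⟨by linarith, by linarith⟩
  set Ξ := Real.exp (2 * μ * psi n δ (X z, z.2)) - lam ^ 2 * (z.1 ^ 2 + q z ^ 2) with hΞ
  have e1 : |2 * μ * psi n δ (X z, z.2)| ≤ 2 * η * P := by
    rw [abs_mul, abs_of_nonneg (by positivity : (0:ℝ) ≤ 2 * μ)]
    exact mul_le_mul (by linarith) a0 (abs_nonneg _) (by linarith)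
  have e2 : |2 * μ * psi n δ (X z, z.2)| ≤ 1 := by
    have h4P : 2 * P ≤ W := by
      rw [hW]
      have : 0 ≤ 4 * P * (1 + (K0 + 2) ^ 2) := by positivity
      have : 0 ≤ (K0 + 2) ^ 4 := by positivity
      linarith
    have : 2 * η * P ≤ W * η := by
      rw [show 2 * η * P = 2 * P * η by ring]
      exact mul_le_mul_of_nonneg_right h4P (by linarith)
    linarith
  have e3 := Real.abs_exp_sub_one_le e2
  have e4 : z.1 ^ 2 + q z ^ 2 ≤ 1 + (K0 + 2) ^ 4 := by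
    nlinarith [sq_abs z.1, sq_abs (q z), abs_nonneg z.1, abs_nonneg (q z)]
  have e5 : lam ^ 2 * (z.1 ^ 2 + q z ^ 2) ≤ η * (1 + (K0 + 2) ^ 4) :=
    mul_le_mul hl2 e4 (by positivity) (by linarith)
  have hΞ1 : |Ξ - 1| ≤ W * η := by
    have : |Ξ - 1| ≤ 2 * (2 * η * P) + η * (1 + (K0 + 2) ^ 4) := by
      have h0 : 0 ≤ lam ^ 2 * (z.1 ^ 2 + q z ^ 2) := by positivity
      have e3' := abs_le.1 (e3.trans (mul_le_mul_of_nonneg_left e1 (by norm_num)))
      rw [hΞ, abs_le]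
      constructor <;> linarith
    refine this.trans ?_
    calc 2 * (2 * η * P) + η * (1 + (K0 + 2) ^ 4) = (4 * P + 1 + (K0 + 2) ^ 4) * η := by ring
      _ ≤ W * η := by
        refine mul_le_mul_of_nonneg_right ?_ (by linarith)
        rw [hW]
        have : 0 ≤ 4 * P * (1 + (K0 + 2) ^ 2) := by positivity
        linarith
  set A := cA (psi n δ) μ z.1 z.2 (X z) (q z) with hA
  have hA1 : |A| ≤ η * (P * (1 + (K0 + 2) ^ 2)) := by
    rw [hA]; unfold cA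
    rw [abs_mul, abs_of_nonneg hμ0]
    refine mul_le_mul hμη ((abs_add_le _ _).trans ?_) (abs_nonneg _) (by linarith)
    rw [abs_mul, abs_mul, abs_neg]
    calc _ ≤ P * 1 + P * (K0 + 2) ^ 2 :=
          add_le_add (mul_le_mul a1 (by linarith) (abs_nonneg _) hP0)
            (mul_le_mul a2 hq (abs_nonneg _) hP0)
      _ = _ := by ring
  have hD : |1 + A * v - 1| ≤ W * η := by
    rw [add_sub_cancel_left, abs_mul]
    calc |A| * |v| ≤ η * (P * (1 + (K0 + 2) ^ 2)) * 2 :=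
          mul_le_mul hA1 hv2 (abs_nonneg _) (mul_nonneg (by linarith) (by positivity))
      _ = 2 * P * (1 + (K0 + 2) ^ 2) * η := by ring
      _ ≤ W * η := by
        refine mul_le_mul_of_nonneg_right ?_ (by linarith)
        rw [hW]
        have : 0 ≤ P * (1 + (K0 + 2) ^ 2) := by positivity
        have : 0 ≤ (K0 + 2) ^ 4 := by positivity
        linarith
  have hv3 : |v - 1| ≤ W * η := hv1.trans (le_mul_of_one_le_left (by linarith) hW1)
  have hclose : dist (Ξ, v, 1 + A * v) ((1 : ℝ), (1 : ℝ), (1 : ℝ)) < ρ := by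
    simp only [Prod.dist_eq, Real.dist_eq]
    exact max_lt (by linarith) (max_lt (by linarith) (by linarith))
  have hfin := hρ' hclose
  simp only [one_pow, mul_one, div_one, Real.dist_eq] at hfin
  have key : mainCoef (psi n δ) t lam X q m z + t
      = -t * (Ξ * v ^ (m + 1) / (1 + A * v) - 1) := by
    unfold mainCoef
    rw [← hμ, ← hA, ← hv, ← hΞ]
    ring
  rw [key, abs_mul, abs_neg, abs_of_pos ht, mul_comm ε]
  exact mul_le_mul_of_nonneg_left hfin.le ht.le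

end Vale.Agent.P229.Mid
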