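import Vale.Agent.P229.Middle.Levels

/-!
# P229, middle module: the jump of the invariant at the critical level
-/

namespace Vale.Agent.P229.Mid

open Real Set
open scoped ContDiff

variable {n : ℕ} {K0 K C C0 t0 η δ t lam : ℝ} {X q : E2 → ℝ}

lemma horiz (h : Hodo n δ t lam η K0 X q) (y a b : ℝ) :
    |(X (b, y) - b) - (X (a, y) - a)| ≤ η * |b - a| :=
  Convex.norm_image_sub_le_of_norm_hasDerivWithin_le (f := fun x => X (x, y) - x)
    (f' := fun x => d1 X (x, y) - 1)
    (fun x _ => ((d1_hasDerivAt (h.smoothX.differentiable (by simp)) x y).sub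
      (hasDerivAt_id' x)).hasDerivWithinAt)
    (fun x _ => h.Xp (x, y)) convex_univ (mem_univ a) (mem_univ b)

lemma vert (h : Hodo n δ t lam η K0 X q) (x y : ℝ) : |X (x, y) - X (x, 0)| ≤ η * |y| := by
  have := Convex.norm_image_sub_le_of_norm_hasDerivWithin_le (f := fun s => X (x, s))
    (f' := fun s => d2 X (x, s)) (C := η) (s := univ) (x := 0) (y := y)
    (fun s _ => (d2_hasDerivAt (h.smoothX.differentiable (by simp)) x s).hasDerivWithinAt)
    (fun s _ => by rw [h.compat, norm_neg, Real.norm_eq_abs]; exact h.Qp _) convex_univ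
    (mem_univ _) (mem_univ _)
  simpa using this

/-- The axis meets every value of `X` of size much below `t`, well inside the slab. -/
lemma exists_centre (S : Slab n K0 K C C0 t0 η δ t lam X q) {w : ℝ} (hw : |w| ≤ 4 * δ)
    (hδt : δ ≤ t0 / 32) :
    ∃ p0, X (p0, 0) = w ∧ -(K * t) + 2 * δ ≤ p0 ∧ p0 ≤ K * t - 2 * δ := by
  have h := S.hodo
  have ht := S.t_pos
  have hη := S.eta_le
  obtain ⟨-, -, -, -, -, -, -, h8, -⟩ := S.facts
  have hKt : (2 * K0 + 1) * t ≤ K * t := mul_le_mul_of_nonneg_right S.Kge ht.le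
  have hK0t : 0 ≤ K0 * t := mul_nonneg S.K0pos.le ht.le
  have h0 : |X (0, 0)| ≤ K0 * t := by
    have := h.axisX (0, 0) (by constructor <;> simp)
    simpa using this
  have hp := horiz h 0 0 (K * t)
  have hm := horiz h 0 (-(K * t)) 0
  simp only [sub_zero] at hp
  rw [abs_of_nonneg (by nlinarith : (0:ℝ) ≤ K * t)] at hp
  rw [show (0 : ℝ) - -(K * t) = K * t by ring,
    abs_of_nonneg (by nlinarith : (0:ℝ) ≤ K * t)] at hm
  rw [abs_le] at hp hm h0 hw
  have hs : η * (K * t) ≤ 1 / 4 * (K * t) := mul_le_mul_of_nonneg_right hη (by nlinarith)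
  have hδ2 : δ ≤ t / 32 := hδt.trans (by linarith [S.t_ge])
  have e1 : t / 2 ≤ X (K * t, 0) := by linarith
  have e2 : X (-(K * t), 0) ≤ -(t / 2) := by linarith
  have hc : ContinuousOn (fun x => X (x, 0)) (Icc (-(K * t)) (K * t)) :=
    (h.smoothX.continuous.comp (Continuous.prodMk_left 0)).continuousOn
  obtain ⟨p0, hp0, he⟩ := intermediate_value_Icc (by linarith) hc
    (show w ∈ Icc (X (-(K * t), 0)) (X (K * t, 0)) from ⟨by linarith, by linarith⟩)
  refine ⟨p0, he, ?_, ?_⟩
  · have h1 := horiz h 0 (-(K * t)) p0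
    rw [abs_of_nonneg (by linarith [hp0.1] : (0:ℝ) ≤ p0 - -(K * t))] at h1
    have h2 : η * (p0 - -(K * t)) ≤ 1 * (p0 - -(K * t)) :=
      mul_le_mul_of_nonneg_right (by linarith) (by linarith [hp0.1])
    simp only at he
    rw [he, abs_le] at h1
    linarith
  · have h1 := horiz h 0 p0 (K * t)
    rw [abs_of_nonneg (by linarith [hp0.2] : (0:ℝ) ≤ K * t - p0)] at h1
    have h2 : η * (K * t - p0) ≤ 1 * (K * t - p0) :=
      mul_le_mul_of_nonneg_right (by linarith) (by linarith [hp0.2])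
    simp only at he
    rw [he, abs_le] at h1
    linarith

lemma bump_top (n : ℕ) {δ : ℝ} (hδ : 0 < δ) (w : E2) :
    (d1^[n]) (lap (bumpPart n δ)) w = Real.sqrt δ / δ / δ * prof n (w.1 / δ, w.2 / δ) := by
  rw [bump_scaled]
  congr 1
  rw [inv_pow, pow_add]
  field_simp

/-- Sup bound at the level `n`. -/
lemma top_bound (S : Slab n K0 K C C0 t0 η δ t lam X q) {A ε M : ℝ} (hA : 0 ≤ A)
    (hM : ∀ z, |prof n z| ≤ M) (hε1 : ε ≤ 1)
    (hG : ∀ z ∈ region t (K * t),
      |Glev (psi n δ) t lam X q n z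
          - mainCoef (psi n δ) t lam X q n z * (d1^[n]) (lap (bumpPart n δ)) (X z, z.2)|
        ≤ A * (1 + Real.sqrt δ / δ * lor δ z.2))
    (hco : ∀ z ∈ slab (K * t), |mainCoef (psi n δ) t lam X q n z + t| ≤ ε * t) :
    ∃ R, 0 ≤ R ∧ R ≤ 2 * (2 * |C0| + 17 * A) + 52 * M * (t * (Real.sqrt δ / δ)) ∧
      ∀ z ∈ region t (K * t), |(d1^[n]) X z| ≤ 2 * R / Real.sqrt t ∧ |(d1^[n]) q z| ≤ 2 * R := by
  have hh := S.hodo
  have D := S.charData
  have hδ := S.delta_pos
  have ht := S.t_pos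
  obtain ⟨hK, hC, hs, hs_1, hC96, h3, h5, h8, ht4⟩ := S.facts
  have hη0 : 0 ≤ η := ht.le.trans S.t_le
  set C' := lvlC n C with hC'
  have hM0 : 0 ≤ M := (abs_nonneg _).trans (hM 0)
  set d := Real.sqrt δ / δ with hd
  have hd0 : 0 ≤ d := by positivity
  set pref := d / δ with hpref
  have hpref0 : 0 ≤ pref := by positivity
  have hsc : ∀ w : E2, (d1^[n]) (lap (bumpPart n δ)) w = pref * prof n (w.1 / δ, w.2 / δ) :=
    bump_top n hδ
  -- sup bound at the level `n`
  have hG1 : ∀ z ∈ region t (K * t),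
      |Glev (psi n δ) t lam X q n z| ≤ A + (A * d + 2 * M * t * pref) * lor δ z.2 := by
    intro z hz
    have h1 := hG z hz
    have hl := lor_nonneg δ z.2
    have h2 : |mainCoef (psi n δ) t lam X q n z * (d1^[n]) (lap (bumpPart n δ)) (X z, z.2)|
        ≤ 2 * M * t * pref * lor δ z.2 := by
      have a1 : |mainCoef (psi n δ) t lam X q n z| ≤ 2 * t := by
        have a := hco z (region_subset D hz)
        have a' : ε * t ≤ 1 * t := mul_le_mul_of_nonneg_right hε1 ht.le
        rw [abs_le] at a ⊢; constructor <;> linarith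
      rw [hsc, abs_mul]
      by_cases hy : |z.2| ≤ 2 * δ
      · calc _ ≤ 2 * t * (pref * M) := mul_le_mul a1 (by
              rw [abs_mul, abs_of_nonneg hpref0]
              exact mul_le_mul_of_nonneg_left (hM _) hpref0) (abs_nonneg _) (by positivity)
          _ ≤ 2 * t * (pref * M) * lor δ z.2 :=
              le_mul_of_one_le_right (by positivity) (one_le_lor hδ hy)
          _ = _ := by ring
      · rw [prof_zero, mul_zero, abs_zero, mul_zero]
        · positivity
        · simp only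
          rw [abs_div, abs_of_pos hδ, le_div_iff₀ hδ]; exact (not_le.1 hy).le
    have := abs_sub_abs_le_abs_sub (Glev (psi n δ) t lam X q n z)
      (mainCoef (psi n δ) t lam X q n z * (d1^[n]) (lap (bumpPart n δ)) (X z, z.2))
    linarith
  obtain ⟨R, hR0, hR, hab⟩ := transport (S.sys (m := n) le_rfl)
    (R0 := |C0|) (A := A) (B := A * d + 2 * M * t * pref) (δ := δ)
    (by
      have h := mul_le_mul_of_nonneg_right S.small hs.le
      rw [one_mul] at h
      calc 96 * C' * (K * t) = 96 * C' * K * Real.sqrt t * Real.sqrt t := by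
            rw [mul_assoc (96 * C' * K), Real.mul_self_sqrt ht.le]; ring
        _ ≤ Real.sqrt t := h)
    hA (by positivity) hδ
    (fun y hy => ⟨(S.trace n le_rfl y hy).1.trans (le_abs_self _),
      (S.trace n le_rfl y hy).2.1.trans (le_abs_self _)⟩) hG1
  set P := t * d with hP
  have hdδ : d * δ ≤ 1 := by
    rw [hd, div_mul_cancel₀ _ hδ.ne']; exact Real.sqrt_le_one.mpr S.delta_one
  have hprefδ : pref * δ = d := by rw [hpref]; field_simp
  have hR' : R ≤ 2 * (2 * |C0| + 17 * A) + 52 * M * P := by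
    have e1 : 4 * A * (K * t) / Real.sqrt t ≤ 4 * A := by
      rw [div_le_iff₀ hs]
      exact mul_le_mul_of_nonneg_left (by linarith) (by positivity)
    have e2 : 13 * (A * d + 2 * M * t * pref) * δ ≤ 13 * A + 26 * M * P := by
      rw [show 13 * (A * d + 2 * M * t * pref) * δ
        = 13 * (A * (d * δ)) + 26 * M * (t * (pref * δ)) by ring, hprefδ, ← hP]
      have := mul_le_of_le_one_right hA hdδ
      linarith
    linarith
  exact ⟨R, hR0, hR', hab⟩

/-- The characteristic through a point where `X = δ ξ`, `y = 0`. -/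
lemma special_curve (S : Slab n K0 K C C0 t0 η δ t lam X q) {ξ : ℝ} (hξ : |ξ| ≤ 4)
    (hδt : δ ≤ t0 / 32) :
    ∃ γ : ℝ → ℝ,
      IsChar (gam (psi n δ) t lam X q) (bet (psi n δ) t lam X q) (K * t) 1 (-(K * t)) (K * t) γ ∧
      (∀ p ∈ Icc (-(K * t)) (K * t), (p, γ p) ∈ region t (K * t) ∧
        |X (p, γ p) - δ * ξ| ≤ (η + 6 * lvlC n C * Real.sqrt t) * |γ p|) ∧
      2 * δ ≤ γ (K * t) ∧ γ (-(K * t)) ≤ -(2 * δ) := by
  have hh := S.hodo
  have D := S.charData
  have hδ := S.delta_pos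
  have ht := S.t_pos
  obtain ⟨hK, hC, hs, hs_1, hC96, h3, h5, h8, ht4⟩ := S.facts
  have hη0 : 0 ≤ η := ht.le.trans S.t_le
  set C' := lvlC n C with hC'
  -- the special characteristic
  obtain ⟨p0, hX0, hp0a, hp0b⟩ := exists_centre S (w := δ * ξ)
    (by rw [abs_mul, abs_of_pos hδ]; linarith [mul_le_mul_of_nonneg_left hξ hδ.le]) hδt
  have hpm : p0 ∈ Icc (-(K * t)) (K * t) := ⟨by linarith, by linarith⟩
  have hlen : 2 / Real.sqrt t * (K * t - -(K * t)) ≤ 1 / 24 := by
    calc 2 / Real.sqrt t * (K * t - -(K * t)) ≤ 2 / Real.sqrt t * (Real.sqrt t / 48) :=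
          mul_le_mul_of_nonneg_left (by linarith) (by positivity)
      _ = 1 / 24 := by field_simp; norm_num
  obtain ⟨γ, hγ0, hγ, hbd⟩ := exists_char D (σ := (1 : ℝ)) (Or.inl rfl) (u := -(K * t))
    (v := K * t) (p0 := p0) (y0 := 0) le_rfl hpm le_rfl (by rw [abs_zero]; linarith)
  have hreg : ∀ p ∈ Icc (-(K * t)) (K * t), (p, γ p) ∈ region t (K * t) := by
    intro p hp
    refine ⟨abs_le.2 hp, ?_⟩
    have h1 := hbd p hp
    have h2 : 2 / Real.sqrt t * |p - p0| ≤ 2 / Real.sqrt t * (K * t - -(K * t)) :=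
      mul_le_mul_of_nonneg_left
        (abs_le.2 ⟨by linarith [hp.1, hpm.2], by linarith [hp.2, hpm.1]⟩) (by positivity)
    have h4 : 0 ≤ 4 / Real.sqrt t * (K * t - p) :=
      mul_nonneg (by positivity) (by linarith [hp.2])
    simp only [sub_zero] at h1 ⊢
    linarith
  set k := 1 / (3 * C' * Real.sqrt t) with hk
  have hk0 : 0 < k := by rw [hk]; positivity
  have hk1 : 1 ≤ k := by rw [hk, le_div_iff₀ (by positivity)]; linarith
  have hgrow : MonotoneOn (fun p => γ p - k * p) (Icc (-(K * t)) (K * t)) := by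
    refine monotoneOn_of_hasDerivWithinAt_nonneg
      (f' := fun x => -1 / th (gam (psi n δ) t lam X q) (bet (psi n δ) t lam X q) 1 (x, γ x) - k)
      (convex_Icc _ _)
      ((ContinuousOn.sub (fun x hx => (hγ x hx).2.continuousWithinAt) (by fun_prop)))
      (fun x hx => ?_) (fun x hx => ?_)
    · refine ((hγ x (interior_subset hx)).2.mono interior_subset).sub ?_
      simpa using (hasDerivWithinAt_id x _).const_mul k
    · have hz := (hγ x (interior_subset hx)).1
      obtain ⟨t1, t2⟩ := th_bounds D (σ := (1 : ℝ)) (Or.inl rfl) hz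
      set θ := th (gam (psi n δ) t lam X q) (bet (psi n δ) t lam X q) 1 (x, γ x)
      rw [sub_nonneg, hk, show -1 / θ = 1 / (-1 * θ) by
        rw [neg_one_mul, one_div_neg_eq_neg_one_div, neg_div]]
      exact one_div_le_one_div_of_le (by linarith) t2
  have hdist : ∀ p ∈ Icc (-(K * t)) (K * t), |p - p0| ≤ 3 * C' * Real.sqrt t * |γ p| := by
    intro p hp
    have hkk : 3 * C' * Real.sqrt t * k = 1 := by rw [hk]; field_simp
    have e : k * |p - p0| ≤ |γ p| := by
      rcases le_total p p0 with hle | hle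
      · have := hgrow hp hpm hle
        simp only [hγ0] at this
        rw [abs_of_nonpos (by linarith : p - p0 ≤ 0)]
        linarith [neg_abs_le (γ p)]
      · have := hgrow hpm hp hle
        simp only [hγ0] at this
        rw [abs_of_nonneg (by linarith : (0:ℝ) ≤ p - p0)]
        linarith [le_abs_self (γ p)]
    calc |p - p0| = 3 * C' * Real.sqrt t * (k * |p - p0|) := by
          rw [← mul_assoc, hkk, one_mul]
      _ ≤ _ := mul_le_mul_of_nonneg_left e (by positivity)
  refine ⟨γ, hγ, fun p hp => ⟨hreg p hp, ?_⟩, ?_⟩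
  · have v1 := vert hh p (γ p)
    have v2 := horiz hh 0 p0 p
    rw [hX0] at v2
    have v3 := hdist p hp
    have v4 : η * |p - p0| ≤ 1 * |p - p0| :=
      mul_le_mul_of_nonneg_right (by linarith [S.eta_le]) (abs_nonneg _)
    have v5 : |X (p, γ p) - δ * ξ| ≤ η * |γ p| + 2 * |p - p0| := by
      rw [abs_le] at v1 v2 ⊢
      have := le_abs_self (p - p0)
      have := neg_abs_le (p - p0)
      constructor <;> linarith
    linarith
  · have e1 := hgrow hpm ⟨by linarith [hpm.1, hpm.2], le_rfl⟩ hpm.2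
    have e2 := hgrow ⟨le_rfl, by linarith [hpm.1, hpm.2]⟩ hpm hpm.1
    simp only [hγ0] at e1 e2
    have m1 := le_mul_of_one_le_left (by linarith : (0:ℝ) ≤ K * t - p0) hk1
    have m2 := le_mul_of_one_le_left (by linarith : (0:ℝ) ≤ p0 - -(K * t)) hk1
    constructor <;> linarith

/-- The source along the special curve is close to the model. -/
lemma model_close (S : Slab n K0 K C C0 t0 η δ t lam X q) {A ε M ξ : ℝ}
    (hM : ∀ z, |prof n z| ≤ M) (hMlip : ∀ z w, |prof n z - prof n w| ≤ M * ‖z - w‖)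
    (hε : 0 ≤ ε)
    (hG : ∀ z ∈ region t (K * t),
      |Glev (psi n δ) t lam X q n z
          - mainCoef (psi n δ) t lam X q n z * (d1^[n]) (lap (bumpPart n δ)) (X z, z.2)|
        ≤ A * (1 + Real.sqrt δ / δ * lor δ z.2))
    (hco : ∀ z ∈ slab (K * t), |mainCoef (psi n δ) t lam X q n z + t| ≤ ε * t) {γ : ℝ → ℝ}
    (hγX : ∀ p ∈ Icc (-(K * t)) (K * t), (p, γ p) ∈ region t (K * t) ∧
        |X (p, γ p) - δ * ξ| ≤ (η + 6 * lvlC n C * Real.sqrt t) * |γ p|) :
    ∀ p ∈ Icc (-(K * t)) (K * t),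
      |Glev (psi n δ) t lam X q n (p, γ p)
          - (-t * (Real.sqrt δ / δ / δ) * prof n (ξ, γ p / δ))|
        ≤ A + (A * (Real.sqrt δ / δ) + M * (ε + 2 * η + 12 * lvlC n C * Real.sqrt t) * t
            * (Real.sqrt δ / δ / δ)) * lor δ (γ p) := by
  have hh := S.hodo
  have D := S.charData
  have hδ := S.delta_pos
  have ht := S.t_pos
  obtain ⟨hK, hC, hs, hs_1, hC96, h3, h5, h8, ht4⟩ := S.facts
  have hη0 : 0 ≤ η := ht.le.trans S.t_le
  set C' := lvlC n C with hC'
  have hM0 : 0 ≤ M := (abs_nonneg _).trans (hM 0)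
  set d := Real.sqrt δ / δ with hd
  have hd0 : 0 ≤ d := by positivity
  set pref := d / δ with hpref
  have hpref0 : 0 ≤ pref := by positivity
  have hsc : ∀ w : E2, (d1^[n]) (lap (bumpPart n δ)) w = pref * prof n (w.1 / δ, w.2 / δ) :=
    bump_top n hδ
  set E := M * (ε + 2 * η + 12 * C' * Real.sqrt t) with hE
  have hE0 : 0 ≤ E := by rw [hE]; positivity
  have hmodel : ∀ p ∈ Icc (-(K * t)) (K * t),
      |Glev (psi n δ) t lam X q n (p, γ p) - (-t * pref * prof n (ξ, γ p / δ))|
        ≤ A + (A * d + E * t * pref) * lor δ (γ p) := by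
    intro p hp
    have h1 := hG _ (hγX p hp).1
    simp only [hsc] at h1
    have hl := lor_nonneg δ (γ p)
    have h2 : |mainCoef (psi n δ) t lam X q n (p, γ p) * (pref * prof n (X (p, γ p) / δ, γ p / δ))
        - (-t * pref * prof n (ξ, γ p / δ))| ≤ E * t * pref * lor δ (γ p) := by
      by_cases hy : |γ p| ≤ 2 * δ
      · refine le_trans ?_ (le_mul_of_one_le_right (by positivity) (one_le_lor hδ hy))
        set co := mainCoef (psi n δ) t lam X q n (p, γ p)
        have e : co * (pref * prof n (X (p, γ p) / δ, γ p / δ)) - (-t * pref * prof n (ξ, γ p / δ))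
            = pref * ((co + t) * prof n (X (p, γ p) / δ, γ p / δ)
              - t * (prof n (X (p, γ p) / δ, γ p / δ) - prof n (ξ, γ p / δ))) := by ring
        rw [e, abs_mul, abs_of_nonneg hpref0, mul_comm (E * t) pref]
        refine mul_le_mul_of_nonneg_left ((abs_sub _ _).trans ?_) hpref0
        have x1 : |X (p, γ p) / δ - ξ| ≤ 2 * η + 12 * C' * Real.sqrt t := by
          have v6 : |X (p, γ p) - δ * ξ| ≤ (η + 6 * C' * Real.sqrt t) * (2 * δ) :=
            (hγX p hp).2.trans (mul_le_mul_of_nonneg_left hy (by positivity))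
          rw [show X (p, γ p) / δ - ξ = (X (p, γ p) - δ * ξ) / δ by field_simp, abs_div,
            abs_of_pos hδ, div_le_iff₀ hδ]
          linarith
        have x2 : |prof n (X (p, γ p) / δ, γ p / δ) - prof n (ξ, γ p / δ)|
            ≤ M * (2 * η + 12 * C' * Real.sqrt t) := by
          refine (hMlip _ _).trans (mul_le_mul_of_nonneg_left ?_ hM0)
          simpa [Prod.norm_def] using x1
        rw [abs_mul, abs_mul, abs_of_pos ht]
        calc |co + t| * |prof n (X (p, γ p) / δ, γ p / δ)|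
              + t * |prof n (X (p, γ p) / δ, γ p / δ) - prof n (ξ, γ p / δ)|
            ≤ ε * t * M + t * (M * (2 * η + 12 * C' * Real.sqrt t)) :=
              add_le_add (mul_le_mul (hco _ (region_subset D (hγX p hp).1)) (hM _) (abs_nonneg _) (by positivity))
                (mul_le_mul_of_nonneg_left x2 ht.le)
          _ = E * t := by rw [hE]; ring
      · have hτ : 2 ≤ |γ p / δ| := by
          rw [abs_div, abs_of_pos hδ, le_div_iff₀ hδ]; exact (not_le.1 hy).le
        rw [prof_zero n _ hτ, prof_zero n _ hτ]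
        simp only [mul_zero, sub_zero, abs_zero]
        positivity
    have := abs_sub_le (Glev (psi n δ) t lam X q n (p, γ p))
      (mainCoef (psi n δ) t lam X q n (p, γ p) * (pref * prof n (X (p, γ p) / δ, γ p / δ)))
      (-t * pref * prof n (ξ, γ p / δ))
    linarith
  exact hmodel

/-- Bounded traces are incompatible with the bump at the level `n`. -/
theorem jump_false (S : Slab n K0 K C C0 t0 η δ t lam X q) {A ε M c ξ : ℝ} (hA : 0 ≤ A)
    (hξ : |ξ| ≤ 4) (hc : c ≤ |bumpJ n 0 ξ|)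
    (hM : ∀ z, |prof n z| ≤ M) (hMlip : ∀ z w, |prof n z - prof n w| ≤ M * ‖z - w‖)
    (hε : 0 ≤ ε) (hε1 : ε ≤ 1)
    (hG : ∀ z ∈ region t (K * t),
      |Glev (psi n δ) t lam X q n z
          - mainCoef (psi n δ) t lam X q n z * (d1^[n]) (lap (bumpPart n δ)) (X z, z.2)|
        ≤ A * (1 + Real.sqrt δ / δ * lor δ z.2))
    (hco : ∀ z ∈ slab (K * t), |mainCoef (psi n δ) t lam X q n z + t| ≤ ε * t)
    (hs1 : 2496 * M * lvlC n C * K * Real.sqrt t ≤ c / 4)
    (hs2 : 13 * M * (ε + 2 * η + 12 * lvlC n C * Real.sqrt t) ≤ c / 4)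
    (hδt : δ ≤ t0 / 32)
    (hδbig : 6 * |C0| + 34 * A < c / 2 * (t0 * (Real.sqrt δ / δ))) : False := by
  obtain ⟨R, hR0, hR', hab⟩ := top_bound S hA hM hε1 hG hco
  obtain ⟨γ, hγ, hγX, hend1, hend2⟩ := special_curve S hξ hδt
  have hmodel := model_close S hM hMlip hε hG hco hγX
  have hh := S.hodo
  have D := S.charData
  have hδ := S.delta_pos
  have ht := S.t_pos
  obtain ⟨hK, hC, hs, hs_1, hC96, h3, h5, h8, ht4⟩ := S.facts
  have hη0 : 0 ≤ η := ht.le.trans S.t_le
  set C' := lvlC n C with hC'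
  have hM0 : 0 ≤ M := (abs_nonneg _).trans (hM 0)
  have hKt0 : -(K * t) ≤ K * t := by
    have : 0 ≤ K * t := mul_nonneg (by linarith) ht.le
    linarith
  set d := Real.sqrt δ / δ with hd
  have hd0 : 0 ≤ d := by positivity
  set pref := d / δ with hpref
  have hpref0 : 0 ≤ pref := by positivity
  set P := t * d with hP
  have hdδ : d * δ ≤ 1 := by
    rw [hd, div_mul_cancel₀ _ hδ.ne']; exact Real.sqrt_le_one.mpr S.delta_one
  have hprefδ : pref * δ = d := by rw [hpref]; field_simp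
  set E := M * (ε + 2 * η + 12 * C' * Real.sqrt t) with hE
  have hE0 : 0 ≤ E := by rw [hE]; positivity
  have hch := change_le (S.sys (m := n) le_rfl) (σ := (1 : ℝ)) (Or.inl rfl)
    hKt0 hγ (R := R) (A := A)
    (B := A * d + E * t * pref) (δ := δ) hR0 hA hδ
    (M := fun p => -P * prim n ξ (γ p / δ)) (H := fun p => -t * pref * prof n (ξ, γ p / δ))
    (fun p hp => by
      refine (((hasDerivAt_prim n ξ (γ p / δ)).comp_hasDerivWithinAt p
        ((hγ p hp).2.div_const δ)).const_mul (-P)).congr_deriv ?_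
      rw [hP, hpref]; ring)
    (fun p hp => hab _ (hγX p hp).1) hmodel
  have hprim := prim_sub n ξ (τ1 := γ (-(K * t)) / δ) (τ2 := γ (K * t) / δ)
    (by rw [div_le_iff₀ hδ]; linarith) (by rw [le_div_iff₀ hδ]; linarith)
  have hr1 := rinv_le D (σ := (1 : ℝ)) (Or.inl rfl) (hγ (-(K * t)) ⟨le_rfl, hKt0⟩).1 (R := |C0|)
    ((S.trace n le_rfl _ (hγ (-(K * t)) ⟨le_rfl, hKt0⟩).1.2).1.trans
      (le_abs_self _))
    ((S.trace n le_rfl _ (hγ (-(K * t)) ⟨le_rfl, hKt0⟩).1.2).2.1.trans
      (le_abs_self _))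
  have hr2 := rinv_le D (σ := (1 : ℝ)) (Or.inl rfl) (hγ (K * t) ⟨hKt0, le_rfl⟩).1 (R := |C0|)
    ((S.trace n le_rfl _ (hγ (K * t) ⟨hKt0, le_rfl⟩).1.2).2.2.1.trans
      (le_abs_self _))
    ((S.trace n le_rfl _ (hγ (K * t) ⟨hKt0, le_rfl⟩).1.2).2.2.2.trans
      (le_abs_self _))
  generalize hr1' : rinv (gam (psi n δ) t lam X q) (bet (psi n δ) t lam X q) ((d1^[n]) X)
    ((d1^[n]) q) 1 (-(K * t), γ (-(K * t))) = r1 at hch hr1
  generalize hr2' : rinv (gam (psi n δ) t lam X q) (bet (psi n δ) t lam X q) ((d1^[n]) X)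
    ((d1^[n]) q) 1 (K * t, γ (K * t)) = r2 at hch hr2
  clear hr1' hr2' hmodel hab hG hco hγX hγ D hMlip hM
  have hP0 : 0 ≤ P := by positivity
  have e1 : (24 * C' * R + 2 * A) / Real.sqrt t * (K * t - -(K * t))
      ≤ R * (48 * C' * K * Real.sqrt t) + 4 * A := by
    have ek : (24 * C' * R + 2 * A) / Real.sqrt t * (K * t - -(K * t))
        = R * (48 * C' * K * Real.sqrt t) + 4 * A * (K * Real.sqrt t) := by
      rw [show K * t - -(K * t) = 2 * (K * (Real.sqrt t * Real.sqrt t)) by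
        rw [Real.mul_self_sqrt ht.le]; ring]
      field_simp
      ring
    have := mul_le_of_le_one_right (by positivity : 0 ≤ 4 * A) (h3.trans (by norm_num))
    linarith
  have e2 : R * (48 * C' * K * Real.sqrt t) ≤ (2 * |C0| + 17 * A) + c / 4 * P := by
    have hk' : 48 * C' * K * Real.sqrt t ≤ 1 / 2 := by linarith [S.small]
    calc R * (48 * C' * K * Real.sqrt t)
        ≤ (2 * (2 * |C0| + 17 * A) + 52 * M * P) * (48 * C' * K * Real.sqrt t) :=
          mul_le_mul_of_nonneg_right hR' (by positivity)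
      _ = 2 * (2 * |C0| + 17 * A) * (48 * C' * K * Real.sqrt t)
          + (2496 * M * C' * K * Real.sqrt t) * P := by ring
      _ ≤ 2 * (2 * |C0| + 17 * A) * (1 / 2) + c / 4 * P :=
          add_le_add (mul_le_mul_of_nonneg_left hk' (by positivity))
            (mul_le_mul_of_nonneg_right hs1 hP0)
      _ = _ := by ring
  have e3 : |A * d + E * t * pref| * (13 * δ) ≤ 13 * A + c / 4 * P := by
    rw [abs_of_nonneg (by positivity),
      show (A * d + E * t * pref) * (13 * δ) = 13 * (A * (d * δ)) + 13 * E * (t * (pref * δ)) by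
        ring, hprefδ, ← hP]
    refine add_le_add ?_ (mul_le_mul_of_nonneg_right (by rw [hE]; linarith) hP0)
    linarith [mul_le_of_le_one_right hA hdδ]
  have e4 : c * P ≤ |r2 - r1| + |(r2 - -P * prim n ξ (γ (K * t) / δ))
      - (r1 - -P * prim n ξ (γ (-(K * t)) / δ))| := by
    have : (r2 - -P * prim n ξ (γ (K * t) / δ)) - (r1 - -P * prim n ξ (γ (-(K * t)) / δ))
        = (r2 - r1) + P * bumpJ n 0 ξ := by rw [← hprim]; ring
    rw [this]
    have h1 : c * P ≤ |P * bumpJ n 0 ξ| := by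
      rw [abs_mul, abs_of_nonneg hP0, mul_comm c]; exact mul_le_mul_of_nonneg_left hc hP0
    have h2 := abs_sub_abs_le_abs_sub (P * bumpJ n 0 ξ) (-(r2 - r1))
    rw [abs_neg, sub_neg_eq_add, add_comm (P * bumpJ n 0 ξ)] at h2
    linarith
  have e5 := abs_sub r2 r1
  have e6 : c / 2 * (t0 * d) ≤ c / 2 * P := by
    have hc0 : 0 ≤ c := by
      have : 0 ≤ 2496 * M * C' * K * Real.sqrt t := by positivity
      linarith
    exact mul_le_mul_of_nonneg_left (mul_le_mul_of_nonneg_right S.t_ge hd0) (by linarith)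
  linarith

end Vale.Agent.P229.Mid
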