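import Vale.Agent.P229.Bump
import Vale.Agent.P229.Atoms

/-!
# P229, middle module: the derivatives of the micro bump on horizontal scale `δ`
-/

namespace Vale.Agent.P229.Mid

open Real Set MeasureTheory
open scoped ContDiff

/-- The profile of the source at the level `m`. -/
noncomputable def prof (m : ℕ) : E2 → ℝ := (d1^[m]) (lap bumpB)

lemma prof_smooth (m : ℕ) : ContDiff ℝ ∞ (prof m) := Bump.smooth_iter Bump.lapB_smooth m

lemma prof_off (m : ℕ) : Bump.Off (prof m) := Bump.off_iter Bump.lapB_off m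

lemma prof_zero (m : ℕ) (x : ℝ) {τ : ℝ} (h : 2 ≤ |τ|) : prof m (x, τ) = 0 := by
  refine prof_off m _ ?_
  unfold sqn
  simp only
  nlinarith [sq_abs τ, sq_nonneg x]

lemma prof_bound (m : ℕ) :
    ∃ M : ℝ, 1 ≤ M ∧ (∀ z, |prof m z| ≤ M) ∧ ∀ z w, |prof m z - prof m w| ≤ M * ‖z - w‖ := by
  have hc := Bump.off_compact (prof_off m)
  obtain ⟨M1, h1⟩ := hc.exists_bound_of_continuous (prof_smooth m).continuous
  obtain ⟨K, hK⟩ := ((prof_smooth m).of_le (by simp)).lipschitzWith_of_hasCompactSupport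
    (n := 1) hc one_ne_zero
  refine ⟨max (max M1 K) 1, le_max_right _ _, fun z => ?_, fun z w => ?_⟩
  · exact le_trans (by simpa using h1 z) ((le_max_left _ _).trans (le_max_left _ _))
  · refine le_trans ?_ (mul_le_mul_of_nonneg_right
      ((le_max_right M1 K).trans (le_max_left _ 1)) (norm_nonneg _))
    simpa [Real.dist_eq, dist_eq_norm] using hK.dist_le_mul z w

/-- Scaling of the derivatives of the Laplacian of the bump part. -/
lemma bump_scaled (n m : ℕ) (δ : ℝ) (u : E2) :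
    (d1^[m]) (lap (bumpPart n δ)) u
      = δ ^ n * Real.sqrt δ * δ⁻¹ ^ (m + 2) * prof m (u.1 / δ, u.2 / δ) := by
  have h : lap (bumpPart n δ) = scaled (δ ^ n * Real.sqrt δ / δ ^ 2) δ (lap bumpB) :=
    atom_scaled (δ ^ n * Real.sqrt δ) δ contDiff_bumpB 3
  rw [h, d1_iter_scaled _ δ Bump.lapB_smooth]
  unfold scaled prof
  rw [inv_pow, pow_add, mul_inv]
  ring

lemma scale_pow {n m : ℕ} (hm : m ≤ n) {δ : ℝ} (hδ : 0 < δ) (hδ1 : δ ≤ 1) :
    δ ^ n * Real.sqrt δ * δ⁻¹ ^ (m + 2) ≤ Real.sqrt δ / δ ^ 2 := by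
  have hp : (0 : ℝ) < δ ^ (m + 2) := by positivity
  rw [inv_pow, ← div_eq_mul_inv, div_le_div_iff₀ hp (by positivity)]
  calc δ ^ n * Real.sqrt δ * δ ^ 2 = Real.sqrt δ * δ ^ (n + 2) := by ring
    _ ≤ Real.sqrt δ * δ ^ (m + 2) :=
        mul_le_mul_of_nonneg_left (pow_le_pow_of_le_one hδ.le hδ1 (by omega))
          (Real.sqrt_nonneg _)

/-- Primitive of the profile along a vertical line. -/
noncomputable def prim (n : ℕ) (ξ τ : ℝ) : ℝ := ∫ s in (0 : ℝ)..τ, prof n (ξ, s)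

lemma hasDerivAt_prim (n : ℕ) (ξ τ : ℝ) : HasDerivAt (prim n ξ) (prof n (ξ, τ)) τ :=
  (((prof_smooth n).continuous.comp (Continuous.prodMk_right ξ)).integral_hasStrictDerivAt 0
    τ).hasDerivAt

lemma prim_sub (n : ℕ) (ξ : ℝ) {τ1 τ2 : ℝ} (h1 : τ1 ≤ -2) (h2 : 2 ≤ τ2) :
    prim n ξ τ2 - prim n ξ τ1 = bumpJ n 0 ξ := by
  have hc : Continuous fun s => prof n (ξ, s) :=
    (prof_smooth n).continuous.comp (Continuous.prodMk_right ξ)
  unfold prim
  rw [intervalIntegral.integral_interval_sub_left (hc.intervalIntegrable _ _)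
    (hc.intervalIntegrable _ _)]
  unfold bumpJ
  simp only [zero_mul, add_zero]
  refine intervalIntegral.integral_eq_integral_of_support_subset fun s hs => ?_
  have h : |s| < 2 := by
    by_contra hc'
    exact hs (prof_zero n ξ (not_lt.1 hc'))
  rw [abs_lt] at h
  exact ⟨by linarith, by linarith⟩

end Vale.Agent.P229.Mid
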