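import Vale.Agent.P229.Middle.Transport
import Vale.Agent.P229.Middle.Lines
import Vale.Agent.P229.Middle.Coef
import Vale.Agent.P229.LeftAux

/-!
# P229, middle module: the level systems in the slab, and the levels below the critical one
-/

namespace Vale.Agent.P229.Mid

open Real Set
open scoped ContDiff

/-- The constant bounding all coefficients of the levels up to `n`. -/
noncomputable def lvlC (n : ℕ) (C : ℝ) : ℝ := ((n : ℝ) + 1) * C

/-- The standing hypotheses in the slab `|p| ≤ K t`. -/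
structure Slab (n : ℕ) (K0 K C C0 t0 η δ t lam : ℝ) (X q : E2 → ℝ) : Prop where
  hodo : Hodo n δ t lam η K0 X q
  delta_pos : 0 < δ
  delta_one : δ ≤ 1
  t0_pos : 0 < t0
  t_ge : t0 ≤ t
  t_le : t ≤ η
  lam_pos : 0 < lam
  lam_le : lam ≤ η
  eta_le : η ≤ 1 / 4
  K0pos : 0 < K0
  Kge : 2 * K0 + 1 ≤ K
  Cone : 1 ≤ C
  small : 96 * lvlC n C * K * Real.sqrt t ≤ 1
  coeff : ∀ z : E2, |z.1| ≤ 1 / 8 → |z.2| ≤ 1 / 2 → CoeffMidAt (psi n δ) t lam X q C z
  trace : ∀ m ≤ n, ∀ y : ℝ, |y| ≤ 1 / 2 →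
    |(d1^[m]) X (-(K * t), y)| ≤ C0 ∧ |(d1^[m]) q (-(K * t), y)| ≤ C0 ∧
    |(d1^[m]) X (K * t, y)| ≤ C0 ∧ |(d1^[m]) q (K * t, y)| ≤ C0

variable {n : ℕ} {K0 K C C0 t0 η δ t lam : ℝ} {X q : E2 → ℝ}

lemma Slab.t_pos (S : Slab n K0 K C C0 t0 η δ t lam X q) : 0 < t := S.t0_pos.trans_le S.t_ge

lemma Slab.facts (S : Slab n K0 K C C0 t0 η δ t lam X q) :
    1 ≤ K ∧ 1 ≤ lvlC n C ∧ 0 < Real.sqrt t ∧ Real.sqrt t ≤ 1 ∧
      lvlC n C * Real.sqrt t ≤ 1 / 96 ∧ K * Real.sqrt t ≤ 1 / 96 ∧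
      K * t ≤ Real.sqrt t / 96 ∧ K * t ≤ 1 / 96 ∧ t ≤ 1 / 4 := by
  have hs : 0 < Real.sqrt t := Real.sqrt_pos.2 S.t_pos
  have ht : t ≤ 1 / 4 := S.t_le.trans S.eta_le
  have hs1 : Real.sqrt t ≤ 1 := Real.sqrt_le_one.mpr (by linarith)
  have hK : 1 ≤ K := by linarith [S.Kge, S.K0pos]
  have hC : 1 ≤ lvlC n C := by
    unfold lvlC
    have h1 : (1 : ℝ) ≤ (n : ℝ) + 1 := by linarith [(n.cast_nonneg : (0 : ℝ) ≤ n)]
    nlinarith [S.Cone]
  have hh := S.small
  have h1 : lvlC n C * Real.sqrt t ≤ lvlC n C * Real.sqrt t * K :=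
    le_mul_of_one_le_right (by positivity) hK
  have h2 : K * Real.sqrt t ≤ K * Real.sqrt t * lvlC n C :=
    le_mul_of_one_le_right (by positivity) hC
  have h3 : K * Real.sqrt t ≤ 1 / 96 := by linarith
  have h4 : K * t = K * Real.sqrt t * Real.sqrt t := by
    rw [mul_assoc, Real.mul_self_sqrt S.t_pos.le]
  have h5 : K * t ≤ Real.sqrt t / 96 := by
    rw [h4, div_eq_mul_one_div (Real.sqrt t), mul_comm (Real.sqrt t) (1 / 96)]
    exact mul_le_mul_of_nonneg_right h3 hs.le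
  exact ⟨hK, hC, hs, hs1, by linarith, h3, h5, by linarith, ht⟩

lemma Slab.coeff' (S : Slab n K0 K C C0 t0 η δ t lam X q) {z : E2} (hz : z ∈ slab (K * t)) :
    CoeffMidAt (psi n δ) t lam X q C z := by
  obtain ⟨-, -, -, -, -, -, -, h, -⟩ := S.facts
  exact S.coeff z (hz.1.trans (by linarith)) hz.2

lemma Slab.charData (S : Slab n K0 K C C0 t0 η δ t lam X q) :
    CharData (gam (psi n δ) t lam X q) (bet (psi n δ) t lam X q) t (lvlC n C) (K * t) := by
  obtain ⟨hK, hC, hs, -, h1, -, h5, -, ht⟩ := S.facts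
  have hle : C * t ≤ lvlC n C * t := by
    refine mul_le_mul_of_nonneg_right ?_ S.t_pos.le
    unfold lvlC
    nlinarith [S.Cone, (n.cast_nonneg : (0 : ℝ) ≤ n)]
  refine ⟨S.t_pos, by linarith, hC, by linarith, by nlinarith [S.t_pos], by linarith,
    fun z hz => (S.coeff' hz).gsmooth, fun z hz => (S.coeff' hz).bsmooth,
    fun z hz => (S.coeff' hz).hyp, fun z hz => ?_, fun z hz => ?_⟩
  · obtain ⟨a, b, c⟩ := (S.coeff' hz).bdg
    exact ⟨a.trans hle, b.trans hle, c.trans hle⟩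
  · obtain ⟨a, b, c⟩ := (S.coeff' hz).bdbe
    exact ⟨a.trans hle, b.trans hle, c.trans hle⟩

lemma Slab.sys (S : Slab n K0 K C C0 t0 η δ t lam X q) {m : ℕ} (hm : m ≤ n) :
    Sys (gam (psi n δ) t lam X q) (bet (psi n δ) t lam X q) ((d1^[m]) X) ((d1^[m]) q)
      (cm (psi n δ) t lam X q m) (dm (psi n δ) t lam X q m) (Glev (psi n δ) t lam X q m)
      t (lvlC n C) (K * t) := by
  have hX := S.hodo.smoothX
  have hq := S.hodo.smoothQ
  have hbd : ∀ x y : ℝ, |x| ≤ C * t → |y| ≤ C * t → |(m : ℝ) * x + y| ≤ lvlC n C * t := by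
    intro x y hx hy
    refine (abs_add_le _ _).trans ?_
    rw [abs_mul, Nat.abs_cast]
    have hmn : (m : ℝ) ≤ n := by exact_mod_cast hm
    calc (m : ℝ) * |x| + |y| ≤ (n : ℝ) * (C * t) + C * t :=
          add_le_add (mul_le_mul hmn hx (abs_nonneg _) n.cast_nonneg) hy
      _ = lvlC n C * t := by unfold lvlC; ring
  refine ⟨S.charData, fun z _ => (contDiff_iter hX m).differentiable (by simp) z,
    fun z _ => (contDiff_iter hq m).differentiable (by simp) z, fun z _ => ?_, fun z _ => ?_,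
    fun z hz => ?_, fun z hz => ?_⟩
  · rw [d2_iter_compat hX S.hodo.compat m, Function.iterate_succ_apply']
  · unfold Glev
    rw [Function.iterate_succ_apply', Function.iterate_succ_apply']
    ring
  · exact hbd _ _ (S.coeff' hz).bdg.2.1 (S.coeff' hz).bdX
  · exact hbd _ _ (S.coeff' hz).bdbe.2.1 (S.coeff' hz).bdq

lemma abs_snd_le {X' y δ : ℝ} (hδ : 0 < δ) (h : X' ^ 2 + y ^ 2 ≤ 2 * δ ^ 2) : |y| ≤ 2 * δ :=
  abs_le_of_sq_le_sq (by nlinarith [sq_nonneg X']) (by linarith)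

lemma bumpW_le {k : ℕ} (hk : k + 1 ≤ n) (hδ : 0 < δ) (hδ1 : δ ≤ 1) (z : E2) :
    0 ≤ bumpW n δ X k z ∧ bumpW n δ X k z ≤ Real.sqrt δ / δ * lor δ z.2 := by
  have h0 : 0 ≤ Real.sqrt δ / δ * lor δ z.2 :=
    mul_nonneg (by positivity) (lor_nonneg _ _)
  unfold bumpW
  split_ifs with h
  · refine ⟨by positivity, le_trans ?_
      (le_mul_of_one_le_right (by positivity) (one_le_lor hδ (abs_snd_le hδ h)))⟩
    rw [div_le_div_iff₀ (by positivity) hδ]
    calc δ ^ n * Real.sqrt δ * δ = Real.sqrt δ * δ ^ (n + 1) := by ring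
      _ ≤ Real.sqrt δ * δ ^ (k + 2) := mul_le_mul_of_nonneg_left
          (pow_le_pow_of_le_one hδ.le hδ1 (by omega)) (Real.sqrt_nonneg _)
  · exact ⟨le_rfl, h0⟩

lemma bump_deriv_le {m : ℕ} (hm : m + 1 ≤ n) (hδ : 0 < δ) (hδ1 : δ ≤ 1) {M : ℝ}
    (hM : ∀ w, |prof m w| ≤ M) (u : E2) :
    |(d1^[m]) (lap (bumpPart n δ)) u| ≤ M * (Real.sqrt δ / δ) * lor δ u.2 := by
  have hM0 : 0 ≤ M := (abs_nonneg _).trans (hM 0)
  rw [bump_scaled]
  by_cases h : |u.2| ≤ 2 * δ
  · refine le_trans ?_ (le_mul_of_one_le_right (by positivity) (one_le_lor hδ h))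
    rw [abs_mul, abs_of_nonneg (by positivity : 0 ≤ δ ^ n * Real.sqrt δ * δ⁻¹ ^ (m + 2))]
    rw [mul_comm M]
    refine mul_le_mul ?_ (hM _) (abs_nonneg _) (by positivity)
    rw [inv_pow, ← div_eq_mul_inv, div_le_div_iff₀ (by positivity) hδ]
    calc δ ^ n * Real.sqrt δ * δ = Real.sqrt δ * δ ^ (n + 1) := by ring
      _ ≤ Real.sqrt δ * δ ^ (m + 2) := mul_le_mul_of_nonneg_left
          (pow_le_pow_of_le_one hδ.le hδ1 (by omega)) (Real.sqrt_nonneg _)
  · rw [prof_zero, mul_zero, abs_zero]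
    · exact mul_nonneg (by positivity) (lor_nonneg _ _)
    · rw [abs_div, abs_of_pos hδ, le_div_iff₀ hδ]; exact (not_le.1 h).le

/-- All levels below the `n`-th stay bounded in the region of influence. -/
theorem levels_bound {η1 : ℝ} (n : ℕ) (K0 K C C0 t0 : ℝ) (ht0 : 0 < t0)
    (hK0 : 0 < K0)
    (hG : ∀ m, 5 ≤ m → m ≤ n → ∀ B : ℝ, ∃ C' : ℝ, ∀ δ t lam η : ℝ, ∀ X q : E2 → ℝ,
      0 < δ → δ ≤ η1 → 0 < t → t ≤ η1 → 0 < lam → lam ≤ η1 → η ≤ η1 →
      Hodo n δ t lam η K0 X q →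
        ∀ z ∈ box 4, (∀ l < m, |(d1^[l]) X z| ≤ B ∧ |(d1^[l]) q z| ≤ B) →
          |Glev (psi n δ) t lam X q m z
              - mainCoef (psi n δ) t lam X q m z * (d1^[m]) (lap (bumpPart n δ)) (X z, z.2)|
            ≤ C' * (1 + bumpW n δ X (m - 1) z))
    (hco : ∀ m ≤ n, ∀ δ t lam η : ℝ, ∀ X q : E2 → ℝ, 0 < δ → δ ≤ 1 → 0 < t → t ≤ η →
      0 < lam → lam ≤ η → η ≤ η1 → Hodo n δ t lam η K0 X q → ∀ L : ℝ, L ≤ 1 / 8 →
        ∀ z ∈ slab L, |mainCoef (psi n δ) t lam X q m z + t| ≤ t) :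
    ∀ m, 6 ≤ m → m ≤ n → ∃ B : ℝ, ∀ δ t lam η : ℝ, ∀ X q : E2 → ℝ,
      Slab n K0 K C C0 t0 η δ t lam X q → δ ≤ η1 → η ≤ η1 →
        ∀ z ∈ region t (K * t), ∀ l < m, |(d1^[l]) X z| ≤ B ∧ |(d1^[l]) q z| ≤ B := by
  intro m h6
  induction m, h6 using Nat.le_induction with
  | base =>
    intro _
    refine ⟨(K0 + 2) ^ 2, fun δ t lam η X q S _ _ z hz l hl => ?_⟩
    obtain ⟨-, -, -, -, -, -, -, h8, -⟩ := S.facts
    exact base_levels S.hodo S.eta_le S.t_pos S.t_le hK0.le (by linarith)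
      (region_subset S.charData hz) (by omega)
  | succ m h6 ih =>
    intro hmn
    obtain ⟨B, hB⟩ := ih (by omega)
    obtain ⟨C1', hC1'⟩ := hG m (by omega) (by omega) B
    set C1 := max C1' 0 with hC1
    obtain ⟨M, hM1, hM, -⟩ := prof_bound m
    set R := 2 * (2 * |C0| + 4 * C1 + 13 * (C1 + M)) with hR
    refine ⟨max B (max (2 * R / Real.sqrt t0) (2 * R)), fun δ t lam η X q S hδ1 hη1 z hz l hl => ?_⟩
    have D := S.charData
    obtain ⟨hK, hC, hs, hs1, -, h3, -, h8, ht4⟩ := S.facts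
    have hδ := S.delta_pos
    have hC10 : 0 ≤ C1 := le_max_right _ _
    have hGb : ∀ w ∈ region t (K * t), |Glev (psi n δ) t lam X q m w|
        ≤ C1 + (C1 + M) * (Real.sqrt δ / δ) * lor δ w.2 := by
      intro w hw
      have hws := region_subset D hw
      have hwb : w ∈ box 4 := slab_box (by linarith) hws
      have e := hC1' δ t lam η X q hδ hδ1 S.t_pos (S.t_le.trans hη1) S.lam_pos
        (S.lam_le.trans hη1) hη1 S.hodo w hwb (hB δ t lam η X q S hδ1 hη1 w hw)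
      obtain ⟨w0, w1⟩ := bumpW_le (k := m - 1) (n := n) (X := X) (by omega) hδ S.delta_one w
      have e' : |Glev (psi n δ) t lam X q m w
          - mainCoef (psi n δ) t lam X q m w * (d1^[m]) (lap (bumpPart n δ)) (X w, w.2)|
          ≤ C1 * (1 + Real.sqrt δ / δ * lor δ w.2) :=
        e.trans ((mul_le_mul_of_nonneg_right (le_max_left C1' 0) (by linarith)).trans
          (mul_le_mul_of_nonneg_left (by linarith) hC10))
      have c1 : |mainCoef (psi n δ) t lam X q m w| ≤ 1 := by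
        have := hco m (by omega) δ t lam η X q hδ S.delta_one S.t_pos S.t_le S.lam_pos S.lam_le
          hη1 S.hodo (K * t) (by linarith) w hws
        rw [abs_le] at this ⊢
        constructor <;> linarith
      have c2 := bump_deriv_le (n := n) (m := m) (by omega) hδ S.delta_one hM (X w, w.2)
      have c3 : |mainCoef (psi n δ) t lam X q m w * (d1^[m]) (lap (bumpPart n δ)) (X w, w.2)|
          ≤ 1 * (M * (Real.sqrt δ / δ) * lor δ w.2) := by
        rw [abs_mul]; exact mul_le_mul c1 c2 (abs_nonneg _) zero_le_one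
      have := abs_sub_abs_le_abs_sub (Glev (psi n δ) t lam X q m w)
        (mainCoef (psi n δ) t lam X q m w * (d1^[m]) (lap (bumpPart n δ)) (X w, w.2))
      linarith
    obtain ⟨R', hR'0, hR', hab⟩ := transport (S.sys (m := m) (by omega))
      (R0 := |C0|) (A := C1) (B := (C1 + M) * (Real.sqrt δ / δ)) (δ := δ)
      (by
        have h := mul_le_mul_of_nonneg_right S.small hs.le
        rw [one_mul] at h
        calc 96 * lvlC n C * (K * t) = 96 * lvlC n C * K * Real.sqrt t * Real.sqrt t := by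
              rw [mul_assoc (96 * lvlC n C * K), Real.mul_self_sqrt S.t_pos.le]; ring
          _ ≤ Real.sqrt t := h)
      hC10 (by positivity) hδ
      (fun y hy => ⟨(S.trace m (by omega) y hy).1.trans (le_abs_self _),
        (S.trace m (by omega) y hy).2.1.trans (le_abs_self _)⟩) hGb
    have hR'' : R' ≤ R := by
      refine hR'.trans ?_
      have e1 : 4 * C1 * (K * t) / Real.sqrt t ≤ 4 * C1 := by
        rw [div_le_iff₀ hs]
        refine mul_le_mul_of_nonneg_left ?_ (by positivity)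
        obtain ⟨-, -, -, -, -, -, h5, -, -⟩ := S.facts
        linarith
      have e2 : 13 * ((C1 + M) * (Real.sqrt δ / δ)) * δ ≤ 13 * (C1 + M) := by
        rw [show 13 * ((C1 + M) * (Real.sqrt δ / δ)) * δ = 13 * (C1 + M) * Real.sqrt δ by
          field_simp]
        exact mul_le_of_le_one_right (by positivity) (Real.sqrt_le_one.mpr S.delta_one)
      rw [hR]; linarith
    rcases Nat.lt_or_ge l m with hlm | hlm
    · obtain ⟨a, b⟩ := hB δ t lam η X q S hδ1 hη1 z hz l hlm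
      exact ⟨a.trans (le_max_left _ _), b.trans (le_max_left _ _)⟩
    · have : l = m := by omega
      subst this
      obtain ⟨a, b⟩ := hab z hz
      refine ⟨a.trans (le_trans ?_ ((le_max_left _ _).trans (le_max_right _ _))),
        b.trans (le_trans (by linarith) ((le_max_right _ _).trans (le_max_right _ _)))⟩
      exact div_le_div₀ (by linarith) (by linarith) (Real.sqrt_pos.2 ht0)
        (Real.sqrt_le_sqrt S.t_ge)

end Vale.Agent.P229.Mid
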