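import Vale.Agent.P229.Middle.Char

/-!
# P229, middle module: transport of the Riemann invariants through the slab

All sup bounds along characteristics are proved by comparison of derivatives.
-/

namespace Vale.Agent.P229.Mid

open Real Set
open scoped ContDiff NNReal

/-- A positive majorant of the indicator of `|y| ≤ 2 δ`. -/
noncomputable def lor (δ y : ℝ) : ℝ := 2 / (1 + (y / (2 * δ)) ^ 2)

/-- A primitive of `lor`. -/
noncomputable def Lor (δ y : ℝ) : ℝ := 4 * δ * Real.arctan (y / (2 * δ))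

lemma lor_nonneg (δ y : ℝ) : 0 ≤ lor δ y := by unfold lor; positivity

lemma one_le_lor {δ y : ℝ} (hδ : 0 < δ) (hy : |y| ≤ 2 * δ) : 1 ≤ lor δ y := by
  unfold lor
  rw [le_div_iff₀ (by positivity)]
  have : |y / (2 * δ)| ≤ 1 := by
    rw [abs_div, abs_of_pos (by linarith : (0:ℝ) < 2 * δ), div_le_one (by linarith)]; exact hy
  nlinarith [sq_abs (y / (2 * δ)), abs_nonneg (y / (2 * δ))]

lemma hasDerivAt_Lor {δ : ℝ} (hδ : 0 < δ) (y : ℝ) : HasDerivAt (Lor δ) (lor δ y) y := by
  have h := (((hasDerivAt_id y).div_const (2 * δ)).arctan).const_mul (4 * δ)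
  refine h.congr_deriv ?_
  unfold lor
  simp only [id_eq]
  field_simp
  ring

lemma Lor_le {δ : ℝ} (hδ : 0 < δ) (y y' : ℝ) : |Lor δ y - Lor δ y'| ≤ 13 * δ := by
  have h1 := Real.arctan_lt_pi_div_two (y / (2 * δ))
  have h2 := Real.neg_pi_div_two_lt_arctan (y / (2 * δ))
  have h3 := Real.arctan_lt_pi_div_two (y' / (2 * δ))
  have h4 := Real.neg_pi_div_two_lt_arctan (y' / (2 * δ))
  have h5 := Real.pi_lt_d2
  unfold Lor
  rw [abs_le]; constructor <;> nlinarith

/-- Comparison of derivatives. -/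
lemma compare {f f' e e' : ℝ → ℝ} {u v : ℝ} (huv : u ≤ v)
    (hf : ∀ x ∈ Icc u v, HasDerivWithinAt f (f' x) (Icc u v) x)
    (he : ∀ x ∈ Icc u v, HasDerivWithinAt e (e' x) (Icc u v) x)
    (hle : ∀ x ∈ Icc u v, |f' x| ≤ e' x) : |f v - f u| ≤ e v - e u := by
  have hcf : ContinuousOn f (Icc u v) := fun x hx => (hf x hx).continuousWithinAt
  have hce : ContinuousOn e (Icc u v) := fun x hx => (he x hx).continuousWithinAt
  have m1 : MonotoneOn (fun x => e x - f x) (Icc u v) :=
    monotoneOn_of_hasDerivWithinAt_nonneg (convex_Icc u v) (hce.sub hcf)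
      (fun x hx => ((he x (interior_subset hx)).sub (hf x (interior_subset hx))).mono
        interior_subset)
      (fun x hx => by linarith [(abs_le.1 (hle x (interior_subset hx))).2])
  have m2 : MonotoneOn (fun x => e x + f x) (Icc u v) :=
    monotoneOn_of_hasDerivWithinAt_nonneg (convex_Icc u v) (hce.add hcf)
      (fun x hx => ((he x (interior_subset hx)).add (hf x (interior_subset hx))).mono
        interior_subset)
      (fun x hx => by linarith [(abs_le.1 (hle x (interior_subset hx))).1])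
  have h1 := m1 (left_mem_Icc.2 huv) (right_mem_Icc.2 huv) huv
  have h2 := m2 (left_mem_Icc.2 huv) (right_mem_Icc.2 huv) huv
  simp only at h1 h2
  rw [abs_le]; constructor <;> linarith

/-- The level system on the slab. -/
structure Sys (g be a b c d G : E2 → ℝ) (t C L : ℝ) : Prop where
  dat : CharData g be t C L
  diffa : ∀ z ∈ slab L, DifferentiableAt ℝ a z
  diffb : ∀ z ∈ slab L, DifferentiableAt ℝ b z
  compat : ∀ z ∈ slab L, d2 a z = -d1 b z
  eqn : ∀ z ∈ slab L, d2 b z = g z * d1 a z + be z * d1 b z + c z * a z + d z * b z + G z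
  bdc : ∀ z ∈ slab L, |c z| ≤ C * t
  bdd : ∀ z ∈ slab L, |d z| ≤ C * t

variable {g be a b c d G : E2 → ℝ} {t C L : ℝ}

/-- A characteristic graph on `[u, v]`. -/
def IsChar (g be : E2 → ℝ) (L σ u v : ℝ) (γ : ℝ → ℝ) : Prop :=
  ∀ p ∈ Icc u v, (p, γ p) ∈ slab L ∧
    HasDerivWithinAt γ (-1 / th g be σ (p, γ p)) (Icc u v) p

lemma exists_char (D : CharData g be t C L) {σ : ℝ} (hσ : σ = 1 ∨ σ = -1) {u v p0 y0 : ℝ}
    (hu : -L ≤ u) (hp0 : p0 ∈ Icc u v) (hv : v ≤ L)
    (hy : |y0| + 2 / Real.sqrt t * (v - u) ≤ 1 / 2) :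
    ∃ γ : ℝ → ℝ, γ p0 = y0 ∧ IsChar g be L σ u v γ ∧
      ∀ p ∈ Icc u v, |γ p - y0| ≤ 2 / Real.sqrt t * |p - p0| := by
  have hs := D.sqrt_pos
  obtain ⟨hu0, hv0⟩ := hp0
  set A : ℝ := 2 / Real.sqrt t * (v - u) with hA
  have hA0 : 0 ≤ A := by rw [hA]; exact mul_nonneg (by positivity) (by linarith)
  set cl : ℝ → ℝ := fun y => max (y0 - A) (min (y0 + A) y) with hcl
  have hcl1 : LipschitzWith 1 cl := (LipschitzWith.id.const_min _).const_max _
  have hyA := abs_le.1 (show |y0| ≤ 1 / 2 - A by linarith)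
  have hin : ∀ p ∈ Icc u v, ∀ y, (p, cl y) ∈ slab L := by
    intro p hp y
    refine ⟨abs_le.2 ⟨by linarith [hp.1], by linarith [hp.2]⟩, abs_le.2 ⟨?_, ?_⟩⟩
    · exact le_trans (by linarith [hyA.1]) (le_max_left _ _)
    · exact max_le (by linarith [hyA.2]) ((min_le_left _ _).trans (by linarith [hyA.2]))
  have hsm : ContDiffOn ℝ 1 (fun z => -1 / th g be σ z) (slab L) := fun z hz =>
    (contDiffAt_const.div (th_smooth D σ hz) (th_ne D hσ hz)).contDiffWithinAt
  obtain ⟨K, hK⟩ := hsm.exists_lipschitzOnWith one_ne_zero (convex_slab L) (isCompact_slab L)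
  set F : ℝ → ℝ → ℝ := fun p y => -1 / th g be σ (p, cl y) with hF
  have hPL : IsPicardLindelof F (tmin := u) (tmax := v) ⟨p0, hu0, hv0⟩ y0 ⟨A, hA0⟩ 0
      ⟨2 / Real.sqrt t, by positivity⟩ K := by
    refine ⟨fun p hp => ?_, fun y _ => ?_, fun p hp y _ => ?_, ?_⟩
    · refine LipschitzOnWith.of_dist_le_mul fun y _ y' _ => ?_
      refine (hK.dist_le_mul _ (hin p hp y) _ (hin p hp y')).trans ?_
      refine mul_le_mul_of_nonneg_left ?_ K.2
      rw [dist_prod_same_left]
      simpa using hcl1.dist_le_mul y y'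
    · exact hsm.continuousOn.comp (by fun_prop) (fun p hp => hin p hp y)
    · exact (slope_bounds D hσ (hin p hp y)).1
    · change 2 / Real.sqrt t * max (v - p0) (p0 - u) ≤ A - ((0 : ℝ≥0) : ℝ)
      rw [NNReal.coe_zero, sub_zero, hA]
      exact mul_le_mul_of_nonneg_left (max_le (by linarith) (by linarith)) (by positivity)
  obtain ⟨γ, h0, hγ⟩ := hPL.exists_eq_forall_mem_Icc_hasDerivWithinAt₀
  simp only at h0
  have hbd : ∀ p ∈ Icc u v, |γ p - y0| ≤ 2 / Real.sqrt t * |p - p0| := by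
    intro p hp
    rw [← h0]
    exact Convex.norm_image_sub_le_of_norm_hasDerivWithin_le hγ
      (fun x hx => (slope_bounds D hσ (hin x hx (γ x))).1) (convex_Icc u v) ⟨hu0, hv0⟩ hp
  have hid : ∀ p ∈ Icc u v, cl (γ p) = γ p := by
    intro p hp
    have h1 : |γ p - y0| ≤ A := (hbd p hp).trans (mul_le_mul_of_nonneg_left
      (abs_le.2 ⟨by linarith [hp.1], by linarith [hp.2]⟩) (by positivity))
    obtain ⟨h2, h3⟩ := abs_le.1 h1
    simp only [hcl]
    rw [min_eq_right (by linarith), max_eq_right (by linarith)]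
  refine ⟨γ, h0, fun p hp => ⟨?_, ?_⟩, hbd⟩
  · rw [← hid p hp]; exact hin p hp _
  · have := hγ p hp
    simp only [hF, hid p hp] at this
    exact this

lemma Sys.deriv_inv (S : Sys g be a b c d G t C L) {σ : ℝ} (hσ : σ = 1 ∨ σ = -1) {u v : ℝ}
    {γ : ℝ → ℝ} (hγ : IsChar g be L σ u v γ) {p : ℝ} (hp : p ∈ Icc u v) :
    HasDerivWithinAt (fun x => rinv g be a b σ (x, γ x))
      (-(lower g be a b c d σ (p, γ p) + G (p, γ p)) / th g be σ (p, γ p)) (Icc u v) p :=
  deriv_along S.dat hσ (hγ p hp).1 (hγ p hp).2 (S.diffa _ (hγ p hp).1) (S.diffb _ (hγ p hp).1)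
    (S.compat _ (hγ p hp).1) (S.eqn _ (hγ p hp).1)

/-- Change of an invariant along its characteristic, compared with a model. -/
lemma change_le (S : Sys g be a b c d G t C L) {σ : ℝ} (hσ : σ = 1 ∨ σ = -1) {u v : ℝ}
    (huv : u ≤ v) {γ : ℝ → ℝ} (hγ : IsChar g be L σ u v γ) {R A B δ : ℝ} (hR : 0 ≤ R)
    (hA : 0 ≤ A) (hδ : 0 < δ) {M : ℝ → ℝ} {H : ℝ → ℝ}
    (hM : ∀ p ∈ Icc u v, HasDerivWithinAt M (H p * (-1 / th g be σ (p, γ p))) (Icc u v) p)
    (hab : ∀ p ∈ Icc u v, |a (p, γ p)| ≤ 2 * R / Real.sqrt t ∧ |b (p, γ p)| ≤ 2 * R)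
    (hG : ∀ p ∈ Icc u v, |G (p, γ p) - H p| ≤ A + B * lor δ (γ p)) :
    |(rinv g be a b σ (v, γ v) - M v) - (rinv g be a b σ (u, γ u) - M u)|
      ≤ (24 * C * R + 2 * A) / Real.sqrt t * (v - u) + |B| * (13 * δ) := by
  have D := S.dat
  have hs := D.sqrt_pos
  set k : ℝ := (24 * C * R + 2 * A) / Real.sqrt t with hk
  have he : ∀ p ∈ Icc u v, HasDerivWithinAt (fun x => k * x + B * (σ * Lor δ (γ x)))
      (k + B * (σ * (lor δ (γ p) * (-1 / th g be σ (p, γ p))))) (Icc u v) p := by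
    intro p hp
    refine HasDerivWithinAt.add ?_ ?_
    · simpa using (hasDerivWithinAt_id p _).const_mul k
    · exact (((hasDerivAt_Lor hδ (γ p)).comp_hasDerivWithinAt p (hγ p hp).2).const_mul
        σ).const_mul B
  have key := compare huv (fun p hp => (S.deriv_inv hσ hγ hp).sub (hM p hp)) he
    (fun p hp => by
      obtain ⟨hz, -⟩ := hγ p hp
      have h1 := lower_le (c := c) (d := d) D hσ hz hR (hab p hp).1 (hab p hp).2
        (S.bdc _ hz) (S.bdd _ hz)
      obtain ⟨h2, h3⟩ := slope_bounds D hσ hz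
      have h4 := hG p hp
      have hne := th_ne D hσ hz
      set m := -1 / th g be σ (p, γ p) with hm
      set lw := lower g be a b c d σ (p, γ p) with hlw
      have e1 : -(lw + G (p, γ p)) / th g be σ (p, γ p) - H p * m
          = -(lw / th g be σ (p, γ p)) + (G (p, γ p) - H p) * m := by
        rw [hm]; field_simp; ring
      rw [e1]
      have h5 : |m| = σ * m := by
        rcases hσ with rfl | rfl
        · rw [abs_of_pos (by linarith)]; ring
        · rw [abs_of_neg (by linarith)]; ring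
      have h6 : |(G (p, γ p) - H p) * m| ≤ A * (2 / Real.sqrt t) + B * lor δ (γ p) * |m| := by
        rw [abs_mul]
        calc _ ≤ (A + B * lor δ (γ p)) * |m| := mul_le_mul_of_nonneg_right h4 (abs_nonneg _)
          _ = A * |m| + B * lor δ (γ p) * |m| := by ring
          _ ≤ _ := by gcongr
      refine (abs_add_le _ _).trans ?_
      rw [abs_neg]
      rw [h5] at h6
      have e2 : k + B * (σ * (lor δ (γ p) * m)) = 24 * C * R / Real.sqrt t + A * (2 / Real.sqrt t)
          + B * lor δ (γ p) * (σ * m) := by rw [hk]; field_simp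
      rw [e2]
      linarith)
  simp only [Pi.sub_apply] at key
  refine key.trans ?_
  have h : B * (σ * Lor δ (γ v)) - B * (σ * Lor δ (γ u)) ≤ |B| * (13 * δ) := by
    refine (le_abs_self _).trans ?_
    rw [show B * (σ * Lor δ (γ v)) - B * (σ * Lor δ (γ u))
      = B * σ * (Lor δ (γ v) - Lor δ (γ u)) by ring, abs_mul, abs_mul]
    have h1 : |σ| = 1 := by rcases hσ with rfl | rfl <;> norm_num
    rw [h1, mul_one]
    exact mul_le_mul_of_nonneg_left (Lor_le hδ _ _) (abs_nonneg _)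
  linarith

/-- The region of influence of the left side of the slab. -/
def region (t L : ℝ) : Set E2 :=
  {z | |z.1| ≤ L ∧ |z.2| ≤ 1 / 8 + 4 / Real.sqrt t * (L - z.1)}

lemma region_le (D : CharData g be t C L) {z : E2} (hz : z ∈ region t L) :
    |z.2| ≤ 3 / 8 := by
  obtain ⟨h1, h2⟩ := hz
  have hs := D.sqrt_pos
  have h3 : 4 / Real.sqrt t * (L - z.1) ≤ 4 / Real.sqrt t * (Real.sqrt t / 16) := by
    apply mul_le_mul_of_nonneg_left _ (by positivity)
    linarith [(abs_le.1 h1).1, D.Lsmall]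
  have h4 : 4 / Real.sqrt t * (Real.sqrt t / 16) = 1 / 4 := by field_simp; norm_num
  linarith

lemma region_subset (D : CharData g be t C L) : region t L ⊆ slab L := fun _ hz =>
  ⟨hz.1, (region_le D hz).trans (by norm_num)⟩

lemma isCompact_region (D : CharData g be t C L) : IsCompact (region t L) := by
  refine (isCompact_slab L).of_isClosed_subset ?_ (region_subset D)
  exact (isClosed_le (f := fun z : E2 => |z.1|) (g := fun _ => L) (by fun_prop)
    continuous_const).inter (isClosed_le (f := fun z : E2 => |z.2|)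
      (g := fun z : E2 => 1 / 8 + 4 / Real.sqrt t * (L - z.1)) (by fun_prop) (by fun_prop))

/-- Sup bound of a level in the region of influence of bounded data. -/
theorem transport (S : Sys g be a b c d G t C L) (hsm : 96 * C * L ≤ Real.sqrt t)
    {R0 A B δ : ℝ} (hA : 0 ≤ A) (hB : 0 ≤ B) (hδ : 0 < δ)
    (trace : ∀ y, |y| ≤ 1 / 2 → |a (-L, y)| ≤ R0 ∧ |b (-L, y)| ≤ R0)
    (hG : ∀ z ∈ region t L, |G z| ≤ A + B * lor δ z.2) :
    ∃ R, 0 ≤ R ∧ R ≤ 2 * (2 * R0 + 4 * A * L / Real.sqrt t + 13 * B * δ) ∧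
      ∀ z ∈ region t L, |a z| ≤ 2 * R / Real.sqrt t ∧ |b z| ≤ 2 * R := by
  have D := S.dat
  have hs := D.sqrt_pos
  have hC := D.Cone
  have hL := D.Lpos
  set f : E2 → ℝ := fun z => max |rinv g be a b 1 z| |rinv g be a b (-1) z| with hf
  have hrc : ∀ σ, ContinuousOn (rinv g be a b σ) (region t L) := fun σ z hz =>
    ((S.diffb _ (region_subset D hz)).continuousAt.add
      (((kap_smooth D σ (region_subset D hz)).continuousAt).mul
        (S.diffa _ (region_subset D hz)).continuousAt)).continuousWithinAt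
  have hne : (region t L).Nonempty := by
    refine ⟨(0, 0), by simpa using hL, ?_⟩
    simp only [abs_zero, sub_zero]
    have : 0 ≤ 4 / Real.sqrt t * L := by positivity
    linarith
  obtain ⟨zm, hzm, hmax⟩ := (isCompact_region D).exists_isMaxOn hne
    (((hrc 1).abs).sup ((hrc (-1)).abs))
  set R : ℝ := f zm with hR
  have hR0 : 0 ≤ R := le_trans (abs_nonneg _) (le_max_left _ _)
  have hab : ∀ z ∈ region t L, |a z| ≤ 2 * R / Real.sqrt t ∧ |b z| ≤ 2 * R := fun z hz =>
    recover D (region_subset D hz) ((le_max_left _ _).trans (hmax hz))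
      ((le_max_right _ _).trans (hmax hz))
  refine ⟨R, hR0, ?_, hab⟩
  have key : ∀ σ : ℝ, (σ = 1 ∨ σ = -1) → |rinv g be a b σ zm|
      ≤ 2 * R0 + R / 2 + 4 * A * L / Real.sqrt t + 13 * B * δ := by
    intro σ hσ
    obtain ⟨p1, y1⟩ := zm
    obtain ⟨hp1, hy1⟩ := hzm
    simp only at hp1 hy1
    obtain ⟨hp1a, hp1b⟩ := abs_le.1 hp1
    have hrl := region_le D (z := (p1, y1)) ⟨hp1, hy1⟩
    simp only at hrl
    have hlen : 2 / Real.sqrt t * (p1 - -L) ≤ 1 / 8 := by
      calc 2 / Real.sqrt t * (p1 - -L) ≤ 2 / Real.sqrt t * (Real.sqrt t / 16) :=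
            mul_le_mul_of_nonneg_left (by linarith [D.Lsmall]) (by positivity)
        _ = 1 / 8 := by field_simp; norm_num
    obtain ⟨γ, h0, hγ, hbd⟩ := exists_char D hσ (u := -L) (v := p1) (p0 := p1) (y0 := y1)
      le_rfl ⟨hp1a, le_rfl⟩ hp1b (by linarith)
    have hreg : ∀ p ∈ Icc (-L) p1, (p, γ p) ∈ region t L := by
      intro p hp
      refine ⟨abs_le.2 ⟨hp.1, hp.2.trans hp1b⟩, ?_⟩
      have h1 := hbd p hp
      rw [abs_of_nonpos (by linarith [hp.2] : p - p1 ≤ 0)] at h1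
      have h2 := abs_sub_abs_le_abs_sub (γ p) y1
      have h3 : 0 ≤ 2 / Real.sqrt t * (p1 - p) :=
        mul_nonneg (by positivity) (by linarith [hp.2])
      have h4 : 4 / Real.sqrt t * (L - p) = 4 / Real.sqrt t * (L - p1)
          + 2 * (2 / Real.sqrt t * (p1 - p)) := by ring
      simp only
      linarith
    have hch := change_le S hσ hp1a hγ (R := R) (A := A) (B := B) (δ := δ) hR0 hA hδ
      (M := fun _ => 0) (H := fun _ => 0)
      (fun p _ => by simpa using hasDerivWithinAt_const p _ (0 : ℝ))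
      (fun p hp => hab _ (hreg p hp))
      (fun p hp => by simpa using hG _ (hreg p hp))
    simp only [sub_zero, h0] at hch
    have hst := (hγ (-L) ⟨le_rfl, hp1a⟩).1
    obtain ⟨ta, tb⟩ := trace (γ (-L)) hst.2
    have hstart := rinv_le D hσ hst ta tb
    rw [abs_of_nonneg hB] at hch
    have e1 : (24 * C * R + 2 * A) / Real.sqrt t * (p1 - -L)
        ≤ R / 2 + 4 * A * L / Real.sqrt t := by
      calc (24 * C * R + 2 * A) / Real.sqrt t * (p1 - -L)
            ≤ (24 * C * R + 2 * A) / Real.sqrt t * (2 * L) :=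
            mul_le_mul_of_nonneg_left (by linarith) (by positivity)
        _ = R / 2 * (96 * C * L / Real.sqrt t) + 4 * A * L / Real.sqrt t := by ring
        _ ≤ R / 2 * 1 + 4 * A * L / Real.sqrt t := by
            gcongr; rw [div_le_one hs]; exact hsm
        _ = _ := by ring
    have := abs_sub_abs_le_abs_sub (rinv g be a b σ (p1, y1)) (rinv g be a b σ (-L, γ (-L)))
    linarith
  have h1 := max_le (key 1 (Or.inl rfl)) (key (-1) (Or.inr rfl))
  change R ≤ _ at h1
  linarith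

end Vale.Agent.P229.Mid
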